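/-
Row 324 (S0582), PDE core, module AP, sub-module AP-T (explicit bounds near the tip; sub-architect helper838; plan: Core/AP/PlanT.lean, item 3).      FILE T/NumA:  |J_a| AND |th J_a|.
      n = q-1 ≥ 99,   zz = z Ξ,  Q = th w Ξ,  Q2 = th (th w) Ξ,  P = bP w Ξ,  Ja = bJa z Ξ = -th z Ξ/z Ξ,  Ja2 = th (bJa z) Ξ,   s = Ξ/(n/100 + Ξ).
      Crude bounds: Bohm/Crude.lean (`h.bohm.crude_pos h.hq hΞ` gives 0 < P, 0 < Q, P < n, Q < 2, n Q < 2P, 2P - nQ < 4, 1/2 < z, z < 1, 1 - z < 2/n;  `thQ_bounds, thz_bound, P_bounds`).       ODE relations: Res/Prof.lean (`prof_Z1, prof_H, prof_thJa`).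
      All proofs: `generalize` the numbers, then real algebra (field_simp, nlinarith, `div_le_div_iff₀`, `abs_le`).
* `apT_Ja_abs`:    |Ja| = |th z|/z ≤ (12/n)/(1-2/n) = 12/(q-3) ≤ 62/(5q)   (0.4 q ≥ 37.2).
* `apT_thJa_abs`:  z Ja2 = -2n Ja + 2 (2P - nQ) (`prof_thJa`):   |z Ja2| ≤ 24 n/(n-2) + 8 ≤ 32.5,   z ≥ 97/99   ⟹  |Ja2| ≤ 34.
-/
import Claimed.Agent.R324.Core.AP.Res.Prof

set_option autoImplicit false

namespace Claimed.Agent.R324.Core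

open Set Filter Topology
open scoped ContDiff

noncomputable section

variable {q : ℕ} {w z : ℝ → ℝ} {Ξ : ℝ}

theorem apT_alg_Ja (r ζ T : ℝ) (hr : 100 ≤ r) (hz : 1 - ζ < 2 / (r - 1)) (hz0 : 0 < ζ)
    (hT : |T| ≤ 12 / (r - 1)) : |-T / ζ| ≤ 62 / (5 * r) := by
  have hn : 0 < r - 1 := by linarith
  have h1 : (1 - ζ) * (r - 1) < 2 := (lt_div_iff₀ hn).1 hz
  have h2 : |T| * (r - 1) ≤ 12 := (le_div_iff₀ hn).1 hT
  rw [abs_div, abs_neg, abs_of_pos hz0, div_le_div_iff₀ hz0 (by linarith)]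
  have hT0 : 0 ≤ |T| := abs_nonneg T
  generalize |T| = t at *
  have h3 : r - 3 < ζ * (r - 1) := by nlinarith
  have h4 : t * (5 * r) * (r - 1) ≤ 62 * ζ * (r - 1) := by nlinarith
  exact le_of_mul_le_mul_right h4 hn

theorem apT_alg_thJa (r ζ A A2 P Q : ℝ) (hr : 100 ≤ r) (hz : 1 - ζ < 2 / (r - 1)) (hz0 : 0 < ζ)
    (hA : |A| ≤ 62 / (5 * r)) (h5 : (r - 1) * Q < 2 * P) (h6 : 2 * P - (r - 1) * Q < 4)
    (hE : ζ * A2 = -2 * (r - 1) * A + 4 * P - 2 * (r - 1) * Q) : |A2| ≤ 34 := by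
  have hn : 0 < r - 1 := by linarith
  have h1 : (1 - ζ) * (r - 1) < 2 := (lt_div_iff₀ hn).1 hz
  have h2 : |A| * (5 * r) ≤ 62 := (le_div_iff₀ (by linarith)).1 hA
  have hζ : 97 / 99 ≤ ζ := by nlinarith
  obtain ⟨a1, a2⟩ := abs_le.1 (show |A| ≤ 62 / (5 * r) from hA)
  have hb : 62 / (5 * r) * (r - 1) ≤ 62 / 5 := by
    rw [div_mul_eq_mul_div, div_le_div_iff₀ (by linarith) (by norm_num)]
    nlinarith
  have c1 : (r - 1) * A ≤ 62 / 5 := by nlinarith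
  have c2 : -(62 / 5) ≤ (r - 1) * A := by nlinarith
  rw [abs_le]
  constructor <;> nlinarith

theorem BP.apT_Ja_abs (h : BP q w z) (hΞ : 0 < Ξ) : |bJa z Ξ| ≤ 62 / (5 * (q : ℝ)) := by
  obtain ⟨-, -, -, -, -, -, -, -, h9⟩ := h.bohm.crude_pos h.hq hΞ
  exact apT_alg_Ja q (z Ξ) (th z Ξ) h.hqR h9 (h.pos Ξ) (h.bohm.thz_bound h.hq Ξ hΞ.le)

theorem BP.apT_thJa_abs (h : BP q w z) (hΞ : 0 < Ξ) : |th (bJa z) Ξ| ≤ 34 := by
  obtain ⟨-, -, -, -, h5, h6, -, -, h9⟩ := h.bohm.crude_pos h.hq hΞ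
  exact apT_alg_thJa q (z Ξ) (bJa z Ξ) (th (bJa z) Ξ) (bP w Ξ) (th w Ξ) h.hqR h9 (h.pos Ξ)
    (h.apT_Ja_abs hΞ) h5 h6 (h.prof_thJa hΞ)

end

end Claimed.Agent.R324.Core
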