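/-
Row 324 (S0582), PDE core, module AP, sub-module AP-T (explicit bounds near the tip; sub-architect helper838; plan: Core/AP/PlanT.lean, item 3).      FILE T/NumB:  Q ≤ 2.02 s  AND  J_a ≥ -Q/10.
      n = q-1 ≥ 99,   zz = z Ξ,  Q = th w Ξ,  Q2 = th (th w) Ξ,  P = bP w Ξ,  Ja = bJa z Ξ = -th z Ξ/z Ξ,  Ja2 = th (bJa z) Ξ,   s = Ξ/(n/100 + Ξ).
      Crude bounds: Bohm/Crude.lean (`h.bohm.crude_pos h.hq hΞ` gives 0 < P, 0 < Q, P < n, Q < 2, n Q < 2P, 2P - nQ < 4, 1/2 < z, z < 1, 1 - z < 2/n;  `thQ_bounds, thz_bound, P_bounds`).       ODE relations: Res/Prof.lean (`prof_Z1, prof_H, prof_thJa`).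
      All proofs: `generalize` the numbers, then real algebra (field_simp, nlinarith, `div_le_div_iff₀`, `abs_le`).
* `apT_Q_le_s`:    Q ≤ 2P/n ≤ 2Ξ/n (P ≤ Ξ) and Q < 2.     Ξ ≤ n:  n/100 + Ξ ≤ 1.01 n, s ≥ Ξ/(1.01 n), 2.02 s ≥ 2Ξ/n;      Ξ ≥ n:  n/100 ≤ Ξ/100,  s ≥ 1/1.01,  2.02 s ≥ 2.
* `apT_Ja_lower`:  z Ja = -2n(1-z) + 2zQ (`prof_Z1`);   (H) `prof_H`:  (1-z)(qn + 2qQ + Q²/2) = 2qQ + Q²/2 - 2P ≤ Q (q+1+Q/2)  (nQ ≤ 2P),  so  n(1-z) ≤ Q (q+2)/q;     z Ja + z Q/10 = 2.1 z Q - 2n(1-z) ≥ Q (2.1 · 97/99 - 2 (q+2)/q) ≥ Q (2.057 - 2.04) ≥ 0,   z > 0.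
-/
import Claimed.Agent.R324.Core.AP.Res.Prof

set_option autoImplicit false

namespace Claimed.Agent.R324.Core

open Set Filter Topology
open scoped ContDiff

noncomputable section

variable {q : ℕ} {w z : ℝ → ℝ} {Ξ : ℝ}

theorem BP.apT_Q_le_s (h : BP q w z) (hΞ : 0 < Ξ) :
    th w Ξ ≤ 101 / 50 * (Ξ / (((q : ℝ) - 1) / 100 + Ξ)) := by
  have hq := h.hqR
  obtain ⟨-, p2, -, p4, p5, -⟩ := h.bohm.crude_pos h.hq hΞ
  obtain ⟨-, -, p6⟩ := h.bohm.P_bounds h.hq Ξ hΞ.le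
  generalize th w Ξ = Q at *
  generalize bP w Ξ = P at *
  have hD : 0 < ((q : ℝ) - 1) / 100 + Ξ := by linarith
  rw [← mul_div_assoc, le_div_iff₀ hD]
  nlinarith

theorem BP.apT_Ja_lower (h : BP q w z) (hΞ : 0 < Ξ) : -(1 / 10) * th w Ξ ≤ bJa z Ξ := by
  have hq := h.hqR
  obtain ⟨p1, p2, p3, p4, p5, p6, p7, p8, p9⟩ := h.bohm.crude_pos h.hq hΞ
  have hZ := h.prof_Z1 hΞ.le
  have hH := h.prof_H hΞ
  generalize bJa z Ξ = Ja at *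
  generalize th w Ξ = Q at *
  generalize bP w Ξ = P at *
  generalize z Ξ = ζ at *
  generalize (q : ℝ) = r at *
  have hn : 0 < r - 1 := by linarith
  have h9 : (1 - ζ) * (r - 1) < 2 := (lt_div_iff₀ hn).1 p9
  -- (1-ζ) r n ≤ Q (r+2)
  have e1 : (1 - ζ) * (r * (r - 1)) ≤ Q * (r + 2) := by
    have a1 : (1 - ζ) * (r * (r - 1) + 2 * r * Q + Q ^ 2 / 2) = 2 * r * Q + Q ^ 2 / 2 - 2 * P := by
      linarith
    have a2 : 0 ≤ (1 - ζ) * (2 * r * Q + Q ^ 2 / 2) :=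
      mul_nonneg (by linarith) (by positivity)
    nlinarith
  have e2 : (97 : ℝ) / 99 ≤ ζ := by
    have : (1 - ζ) * 99 ≤ (1 - ζ) * (r - 1) := mul_le_mul_of_nonneg_left (by linarith) (by linarith)
    linarith
  -- r * (ζ Ja + ζ Q /10) ≥ 0
  have e3 : 0 ≤ r * (ζ * (Ja + 1 / 10 * Q)) := by
    have b1 : r * (ζ * (Ja + 1 / 10 * Q)) = 21 / 10 * (r * (ζ * Q)) - 2 * ((1 - ζ) * (r * (r - 1))) := by
      have : ζ * (Ja + 1 / 10 * Q) = ζ * Ja + 1 / 10 * (ζ * Q) := by ring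
      rw [this, hZ]; ring
    have b2 : 97 / 99 * (r * Q) ≤ r * (ζ * Q) := by
      have : 0 ≤ (ζ - 97 / 99) * (r * Q) := mul_nonneg (by linarith) (by positivity)
      nlinarith
    have b3 : 100 * Q ≤ r * Q := mul_le_mul_of_nonneg_right hq p2.le
    rw [b1]
    nlinarith
  have e4 : 0 ≤ ζ * (Ja + 1 / 10 * Q) := nonneg_of_mul_nonneg_right e3 (by linarith)
  have e5 : 0 ≤ Ja + 1 / 10 * Q := nonneg_of_mul_nonneg_right e4 (by linarith)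
  linarith

end

end Claimed.Agent.R324.Core
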