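/-
Row 324 (S0582), PDE core, module AP, sub-module AP-T (explicit bounds near the tip; sub-architect helper838; plan: Core/AP/PlanT.lean, item 3).      FILE T/Num:  THE NUMBERS OF BOHM'S PROFILE AT A POINT Ξ > 0 AND THE INEQUALITIES BETWEEN THEM.
      n = q-1 ≥ 99,   zz = z Ξ,  Q = th w Ξ,  Q2 = th (th w) Ξ,  P = bP w Ξ,  Ja = bJa z Ξ = -th z Ξ/z Ξ,  Ja2 = th (bJa z) Ξ,   s = Ξ/(n/100 + Ξ).
      Crude bounds: Bohm/Crude.lean (`h.bohm.crude_pos h.hq hΞ` gives 0 < P, 0 < Q, P < n, Q < 2, n Q < 2P, 2P - nQ < 4, 1/2 < z, z < 1, 1 - z < 2/n;  `thQ_bounds, thz_bound, P_bounds`).       ODE relations: Res/Prof.lean (`prof_Z1, prof_H, prof_thJa`).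
      The four non-trivial inequalities: T/NumA, T/NumB.
-/
import Claimed.Agent.R324.Core.AP.T.NumA
import Claimed.Agent.R324.Core.AP.T.NumB

set_option autoImplicit false

namespace Claimed.Agent.R324.Core

open Set Filter Topology
open scoped ContDiff

noncomputable section

/-- the numbers of the profile at a point and what is known about them. -/
structure ProfNum (q s zz Q Q2 P Ja Ja2 : ℝ) : Prop where
  hq : 100 ≤ q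
  s0 : 0 ≤ s
  s1 : s ≤ 1
  z_lo : 1 - 2 / (q - 1) ≤ zz
  z_hi : zz ≤ 1
  Q0 : 0 ≤ Q
  Q_hi : Q ≤ 2
  Q2_lo : 0 ≤ Q2
  Q2_hi : Q2 ≤ 8
  P0 : 0 ≤ P
  P_hi : P ≤ q - 1
  Ja_abs : |Ja| ≤ 62 / (5 * q)
  Ja2_abs : |Ja2| ≤ 34
  Q_s : Q ≤ 101 / 50 * s
  Ja_lo : -(1 / 10) * Q ≤ Ja

/-- the corrections at a point. -/
structure CorNum (ε s u v u1 u2 v1 v2 : ℝ) : Prop where
  u : |u| ≤ ε * s
  v : |v| ≤ ε * s
  u1 : |u1| ≤ ε * s
  u2 : |u2| ≤ ε * s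
  v1 : |v1| ≤ ε * s
  v2 : |v2| ≤ ε * s

/-- the point:  `y ∈ (19/20,1)`, `X = 1 - y²` small, `ε` small. -/
structure GeoNum (q ε y X : ℝ) : Prop where
  e0 : 0 ≤ ε
  e1 : ε ≤ 1 / (1000 * q)
  y0 : 19 / 20 < y
  y1 : y < 1
  X_eq : X = 1 - y ^ 2
  X_le : X ≤ 1 / (1000 * q)

variable {q : ℕ} {w z : ℝ → ℝ} {Ξ : ℝ}

theorem BP.apT_prof (h : BP q w z) (hΞ : 0 < Ξ) :
    ProfNum q (Ξ / (((q : ℝ) - 1) / 100 + Ξ)) (z Ξ) (th w Ξ) (th (th w) Ξ) (bP w Ξ) (bJa z Ξ)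
      (th (bJa z) Ξ) := by
  have hq := h.hqR
  obtain ⟨p1, p2, p3, p4, p5, p6, p7, p8, p9⟩ := h.bohm.crude_pos h.hq hΞ
  have hQ2 := h.bohm.thQ_bounds h.hq Ξ hΞ.le
  have hd : 0 < ((q : ℝ) - 1) / 100 + Ξ := by
    have : 0 < ((q : ℝ) - 1) / 100 := by linarith
    linarith
  exact ⟨hq, (div_pos hΞ hd).le, (div_le_one hd).2 (by linarith), by linarith, p8.le, p2.le, p4.le,
    hQ2.1, hQ2.2, p1.le, p3.le, h.apT_Ja_abs hΞ, h.apT_thJa_abs hΞ, h.apT_Q_le_s hΞ, h.apT_Ja_lower hΞ⟩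

end

end Claimed.Agent.R324.Core
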