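/-
Row 324 (S0582), PDE core, module AP, sub-module AP-T (explicit bounds near the tip; sub-architect helper838; plan: Core/AP/PlanT.lean, items 4, 6).      FILE T/AlgC:  the four inequalities of BgCL.
      PURE REAL ALGEBRA.   Hypotheses (structures of T/Num.lean):   `ProfNum q s zz Q Q2 P Ja Ja2`  (q ≥ 100, 0 ≤ s ≤ 1, 1-2/(q-1) ≤ zz ≤ 1, 0 ≤ Q ≤ 2, 0 ≤ Q2 ≤ 8, 0 ≤ P ≤ q-1, |Ja| ≤ 62/(5q), |Ja2| ≤ 34, Q ≤ 2.02 s, Ja ≥ -Q/10),
      `CorNum ε s u v u1 u2 v1 v2`  (all six ≤ ε s in absolute value, hence ≤ ε),    `GeoNum q ε y X`  (0 ≤ ε ≤ 1/(1000 q) ≤ 10⁻⁵, 19/20 < y < 1, X = 1 - y² ∈ (0, 1/(1000 q)]).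
      exp:  `Real.abs_exp_sub_one_le : |x| ≤ 1 → |exp x - 1| ≤ 2 |x|`,  `Real.add_one_le_exp`,  `Real.exp_pos`.        Advice: first `obtain` bounds  e_lo ≤ exp v ≤ e_hi, then `generalize Real.exp v = e`;   clear denominators with `div_le_iff₀`, `le_div_iff₀`, `abs_le`, `abs_div`;   1/q =: r ∈ (0, 1/100] as a new variable helps nlinarith.
* `apT_algC1`:    zz ∈ [0.979, 1],  exp v ∈ [0.9999, 1.0001],  y² = 1 - X ∈ [0.9999, 1).
* `apT_algC2`:    |y (Q + u1)| ≤ Q + |u1| ≤ 2.02 s + ε s ≤ 4 s.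
* `apT_algC3`:    2X/y ≤ 2·10⁻⁵/0.95,   |θ| ≤ 0.125.
* `apT_algC4`:    the right side equals  y² (Ja/2 - v1/2 - (Q+u1) + (Q+u1)²/2)   (X - y·(2X/y)/2 = 0; `field_simp; ring`, y ≠ 0)   ≥ y² (-Q/20 - εs/2 - Q - εs) ≥ -(1.05 · 2.02 + 1.5 ε) s ≥ -3 s.
-/
import Claimed.Agent.R324.Core.AP.T.Num

set_option autoImplicit false

namespace Claimed.Agent.R324.Core

open Set Filter Topology
open scoped ContDiff

noncomputable section

variable {q s zz Q Q2 P Ja Ja2 ε u v u1 u2 v1 v2 y X : ℝ}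

/-- `1/(1000 q) ≤ 10⁻⁵` -/
theorem apT_algC_small (hq : 100 ≤ q) : 1 / (1000 * q) ≤ 1 / 100000 := by
  apply one_div_le_one_div_of_le (by norm_num)
  linarith

/-- `ε s ≤ 10⁻⁵` and `ε s ≤ 10⁻⁵ s` -/
theorem apT_algC_es (hp : ProfNum q s zz Q Q2 P Ja Ja2) (hg : GeoNum q ε y X) :
    0 ≤ ε * s ∧ ε * s ≤ 1 / 100000 * s ∧ ε * s ≤ 1 / 100000 := by
  have h1 := apT_algC_small hp.hq
  have he : ε ≤ 1 / 100000 := hg.e1.trans h1
  have h2 : ε * s ≤ 1 / 100000 * s := mul_le_mul_of_nonneg_right he hp.s0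
  refine ⟨mul_nonneg hg.e0 hp.s0, h2, ?_⟩
  nlinarith [hp.s0, hp.s1]

theorem apT_algC1 (hp : ProfNum q s zz Q Q2 P Ja Ja2) (hc : CorNum ε s u v u1 u2 v1 v2)
    (hg : GeoNum q ε y X) : 1 / 2 ≤ zz * Real.exp v / y ^ 2 ∧ zz * Real.exp v / y ^ 2 ≤ 2 := by
  obtain ⟨h0, h1, h2⟩ := apT_algC_es hp hg
  have hv : |v| ≤ 1 / 100000 := hc.v.trans h2
  have hv' := abs_le.mp hv
  have e_lo : 99999 / 100000 ≤ Real.exp v := by
    have := Real.add_one_le_exp v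
    linarith [hv'.1]
  have e_hi : Real.exp v ≤ 100002 / 100000 := by
    have := Real.abs_exp_sub_one_le (x := v) (by linarith)
    have := (abs_le.mp this).2
    linarith
  have hz : 97 / 100 ≤ zz := by
    have : 2 / (q - 1) ≤ 2 / 99 := by
      apply div_le_div_of_nonneg_left (by norm_num) (by norm_num)
      linarith [hp.hq]
    linarith [hp.z_lo]
  have hy2 : 0 < y ^ 2 := by have := hg.y0; positivity
  have hy_lo : 9 / 10 ≤ y ^ 2 := by nlinarith [hg.y0]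
  have hy_hi : y ^ 2 ≤ 1 := by nlinarith [hg.y0, hg.y1]
  generalize Real.exp v = e at *
  constructor
  · rw [le_div_iff₀ hy2]
    nlinarith [hp.z_hi]
  · rw [div_le_iff₀ hy2]
    nlinarith [hp.z_hi]

theorem apT_algC2 (hp : ProfNum q s zz Q Q2 P Ja Ja2) (hc : CorNum ε s u v u1 u2 v1 v2)
    (hg : GeoNum q ε y X) : |-y * (Q + u1)| ≤ 4 * s := by
  obtain ⟨h0, h1, h2⟩ := apT_algC_es hp hg
  have hu := abs_le.mp (hc.u1.trans h1)
  have hy0 : 0 < y := by linarith [hg.y0]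
  have hb : |Q + u1| ≤ 4 * s := by
    rw [abs_le]
    constructor <;> linarith [hp.Q0, hp.Q_s, hp.s0]
  rw [abs_mul, abs_neg, abs_of_pos hy0]
  calc y * |Q + u1| ≤ 1 * |Q + u1| := mul_le_mul_of_nonneg_right hg.y1.le (abs_nonneg _)
    _ ≤ 4 * s := by rw [one_mul]; exact hb

theorem apT_algC3 (hp : ProfNum q s zz Q Q2 P Ja Ja2) (hc : CorNum ε s u v u1 u2 v1 v2)
    (hg : GeoNum q ε y X) : |2 * X / y + y * (-Ja + v1)| ≤ 1 := by
  obtain ⟨h0, h1, h2⟩ := apT_algC_es hp hg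
  have hv := abs_le.mp (hc.v1.trans h2)
  have hy0 : 0 < y := by linarith [hg.y0]
  have hX : X ≤ 1 / 100000 := hg.X_le.trans (apT_algC_small hp.hq)
  have hX0 : 0 ≤ X := by rw [hg.X_eq]; nlinarith [hg.y0, hg.y1]
  have hJ : |Ja| ≤ 62 / 500 := by
    refine hp.Ja_abs.trans ?_
    apply div_le_div_of_nonneg_left (by norm_num) (by norm_num)
    linarith [hp.hq]
  have hJ' := abs_le.mp hJ
  have t1 : 0 ≤ 2 * X / y := by positivity
  have t2 : 2 * X / y ≤ 1 / 10 := by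
    rw [div_le_iff₀ hy0]
    nlinarith [hg.y0]
  have t3 : |y * (-Ja + v1)| ≤ 1 / 5 := by
    rw [abs_mul, abs_of_pos hy0]
    have : |-Ja + v1| ≤ 1 / 5 := by
      rw [abs_le]; constructor <;> linarith
    calc y * |-Ja + v1| ≤ 1 * |-Ja + v1| := mul_le_mul_of_nonneg_right hg.y1.le (abs_nonneg _)
      _ ≤ 1 / 5 := by rw [one_mul]; exact this
  have t3' := abs_le.mp t3
  rw [abs_le]
  constructor <;> linarith

theorem apT_algC4 (hp : ProfNum q s zz Q Q2 P Ja Ja2) (hc : CorNum ε s u v u1 u2 v1 v2)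
    (hg : GeoNum q ε y X) :
    -3 * s ≤ X - y * (2 * X / y + y * (-Ja + v1)) / 2 + y * (-y * (Q + u1)) + (-y * (Q + u1)) ^ 2 / 2 := by
  obtain ⟨h0, h1, h2⟩ := apT_algC_es hp hg
  have hv := abs_le.mp (hc.v1.trans h1)
  have hu := abs_le.mp (hc.u1.trans h1)
  have hy0 : 0 < y := by linarith [hg.y0]
  have e : X - y * (2 * X / y + y * (-Ja + v1)) / 2 + y * (-y * (Q + u1)) + (-y * (Q + u1)) ^ 2 / 2
      = y ^ 2 * (Ja / 2 - v1 / 2 - (Q + u1) + (Q + u1) ^ 2 / 2) := by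
    field_simp
    ring
  rw [e]
  have hy_hi : y ^ 2 ≤ 1 := by nlinarith [hg.y0, hg.y1]
  have hy2 : 0 ≤ y ^ 2 := sq_nonneg y
  have hin : -3 * s ≤ Ja / 2 - v1 / 2 - (Q + u1) + (Q + u1) ^ 2 / 2 := by
    have := sq_nonneg (Q + u1)
    linarith [hp.Ja_lo, hp.Q_s, hp.Q0, hp.s0]
  have hs3 : -3 * s ≤ 0 := by linarith [hp.s0]
  calc -3 * s ≤ y ^ 2 * (-3 * s) := by nlinarith
    _ ≤ y ^ 2 * (Ja / 2 - v1 / 2 - (Q + u1) + (Q + u1) ^ 2 / 2) := mul_le_mul_of_nonneg_left hin hy2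

end

end Claimed.Agent.R324.Core
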