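/-
Row 324 (S0582), PDE core, module AP, sub-module AP-T (explicit bounds near the tip; sub-architect helper838; plan: Core/AP/PlanT.lean, items 4, 6).      FILE T/AlgA:  Z, X 𝖽, tt (X 𝖽).
      PURE REAL ALGEBRA.   Hypotheses (structures of T/Num.lean):   `ProfNum q s zz Q Q2 P Ja Ja2`  (q ≥ 100, 0 ≤ s ≤ 1, 1-2/(q-1) ≤ zz ≤ 1, 0 ≤ Q ≤ 2, 0 ≤ Q2 ≤ 8, 0 ≤ P ≤ q-1, |Ja| ≤ 62/(5q), |Ja2| ≤ 34, Q ≤ 2.02 s, Ja ≥ -Q/10),
      `CorNum ε s u v u1 u2 v1 v2`  (all six ≤ ε s in absolute value, hence ≤ ε),    `GeoNum q ε y X`  (0 ≤ ε ≤ 1/(1000 q) ≤ 10⁻⁵, 19/20 < y < 1, X = 1 - y² ∈ (0, 1/(1000 q)]).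
      exp:  `Real.abs_exp_sub_one_le : |x| ≤ 1 → |exp x - 1| ≤ 2 |x|`,  `Real.add_one_le_exp`,  `Real.exp_pos`.        Advice: first `obtain` bounds  e_lo ≤ exp v ≤ e_hi, then `generalize Real.exp v = e`;   clear denominators with `div_le_iff₀`, `le_div_iff₀`, `abs_le`, `abs_div`;   1/q =: r ∈ (0, 1/100] as a new variable helps nlinarith.
      E := zz exp v ∈ [(1-2/(q-1))(1-2ε), 1+2ε],   in particular  E ≥ 0.9797 · 0.99998 ≥ 0.979.       θ = -Ja + v1,  |θ| ≤ 12.4/q + ε ≤ 12.401/q;     θ₂ = -Ja2 + v2,  |θ₂| ≤ 34 + ε.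
* `apT_algZ`:     E/y² ≤ (1+2ε)/(1-X) ≤ 1 + 4·10⁻³/q;      E/y² ≥ E ≥ 1 - 2/(q-1) - 2ε ≥ 1 - 2.03/q.
* `apT_algD`:     |2yX + y³θ| ≤ 2X + |θ| ≤ 12.403/q;     /0.979  ⟹  ≤ 12.67/q.
* `apT_algT`:     |numerator| ≤ 4X + 2X² + 5X|θ| + |θ₂| + θ² ≤ 34.1;     /0.979  ⟹  ≤ 34.9.
-/
import Claimed.Agent.R324.Core.AP.T.Num

set_option autoImplicit false

namespace Claimed.Agent.R324.Core

open Set Filter Topology
open scoped ContDiff

noncomputable section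

variable {q s zz Q Q2 P Ja Ja2 ε u v u1 u2 v1 v2 y X : ℝ}

/-- the basic numbers: `r = 1/q`. -/
theorem apT_algA_basic (hp : ProfNum q s zz Q Q2 P Ja Ja2) (hc : CorNum ε s u v u1 u2 v1 v2)
    (hg : GeoNum q ε y X) :
    ∃ r : ℝ, 0 < r ∧ r ≤ 1 / 100 ∧ r = 1 / q ∧ ε ≤ r / 1000 ∧ X ≤ r / 1000 ∧ 0 < X ∧
      1 - 41 / 20 * r ≤ zz * Real.exp v ∧ zz * Real.exp v ≤ 1 + 2 * ε ∧
      |Ja| ≤ 62 / 5 * r ∧ |v1| ≤ ε ∧ |v2| ≤ ε := by
  have hq := hp.hq
  have hq0 : (0 : ℝ) < q := by linarith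
  refine ⟨1 / q, by positivity, ?_, rfl, ?_, ?_, ?_, ?_, ?_, ?_, ?_, ?_⟩
  · rw [div_le_div_iff₀ hq0 (by norm_num)]; linarith
  · have := hg.e1
    have h2 : 1 / (1000 * q) = 1 / q / 1000 := by field_simp
    linarith
  · have := hg.X_le
    have h2 : 1 / (1000 * q) = 1 / q / 1000 := by field_simp
    linarith
  · have h1 := hg.y0; have h2 := hg.y1; have h3 := hg.X_eq
    nlinarith
  · -- lower bound
    have he1 : ε ≤ 1 / q / 1000 := by
      have := hg.e1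
      have h2 : 1 / (1000 * q) = 1 / q / 1000 := by field_simp
      linarith
    have hr : 1 / q ≤ 1 / 100 := by
      rw [div_le_div_iff₀ hq0 (by norm_num)]; linarith
    have hr0 : 0 < 1 / q := by positivity
    have hv : |v| ≤ ε := by
      have := hc.v
      have h3 : ε * s ≤ ε * 1 := mul_le_mul_of_nonneg_left hp.s1 hg.e0
      linarith
    have hexp : 1 + v ≤ Real.exp v := by
      have := Real.add_one_le_exp v; linarith
    have hv' := abs_le.mp hv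
    have hz : 1 - 203 / 100 * (1 / q) ≤ zz := by
      have h1 := hp.z_lo
      have h2 : 2 / (q - 1) ≤ 203 / 100 * (1 / q) := by
        rw [div_le_iff₀ (by linarith)]
        have : 203 / 100 * (1 / q) * (q - 1) = 203 / 100 * (1 - 1 / q) := by field_simp
        rw [this]; nlinarith
      linarith
    generalize 1 / q = r at *
    have hz0 : 0 ≤ zz := by nlinarith
    have h5 : zz * (1 + v) ≤ zz * Real.exp v := mul_le_mul_of_nonneg_left hexp hz0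
    have h6 : (1 - 203 / 100 * r) * (1 + v) ≤ zz * (1 + v) :=
      mul_le_mul_of_nonneg_right hz (by linarith)
    nlinarith
  · have he1 : ε ≤ 1 / 1000 := by
      have := hg.e1
      have h2 : 1 / (1000 * q) ≤ 1 / 1000 := by
        rw [div_le_div_iff₀ (by positivity) (by norm_num)]; nlinarith
      linarith
    have hv : |v| ≤ ε := by
      have := hc.v
      have h3 : ε * s ≤ ε * 1 := mul_le_mul_of_nonneg_left hp.s1 hg.e0
      linarith
    have h1 := Real.abs_exp_sub_one_le (x := v) (by linarith)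
    have h2 := (abs_le.mp h1).2
    have h3 : Real.exp v ≤ 1 + 2 * ε := by linarith
    have h4 : 0 < Real.exp v := Real.exp_pos v
    have h5 : zz * Real.exp v ≤ 1 * Real.exp v := mul_le_mul_of_nonneg_right hp.z_hi h4.le
    linarith
  · have := hp.Ja_abs
    have h2 : 62 / (5 * q) = 62 / 5 * (1 / q) := by field_simp
    linarith
  · have := hc.v1
    have h3 : ε * s ≤ ε * 1 := mul_le_mul_of_nonneg_left hp.s1 hg.e0
    linarith
  · have := hc.v2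
    have h3 : ε * s ≤ ε * 1 := mul_le_mul_of_nonneg_left hp.s1 hg.e0
    linarith

theorem apT_algZ (hp : ProfNum q s zz Q Q2 P Ja Ja2) (hc : CorNum ε s u v u1 u2 v1 v2)
    (hg : GeoNum q ε y X) : |zz * Real.exp v / y ^ 2 - 1| ≤ 5 / (2 * q) := by
  obtain ⟨r, r0, r1, rq, he, hX, hX0, hlo, hhi, -, -, -⟩ := apT_algA_basic hp hc hg
  have hq0 : (0 : ℝ) < q := by linarith [hp.hq]
  have h2 : 5 / (2 * q) = 5 / 2 * r := by rw [rq]; field_simp
  rw [h2]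
  generalize zz * Real.exp v = E at *
  have hy2 : y ^ 2 = 1 - X := by linarith [hg.X_eq]
  have hy0 : 0 < y ^ 2 := by rw [hy2]; linarith
  have h3 : E / y ^ 2 - 1 = (E - y ^ 2) / y ^ 2 := by
    rw [sub_div, div_self hy0.ne']
  rw [h3, abs_div, abs_of_pos hy0, div_le_iff₀ hy0, abs_le, hy2]
  have e0 := hg.e0
  constructor <;> nlinarith

theorem apT_algD (hp : ProfNum q s zz Q Q2 P Ja Ja2) (hc : CorNum ε s u v u1 u2 v1 v2)
    (hg : GeoNum q ε y X) :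
    |(2 * y * X + y ^ 3 * (-Ja + v1)) / (zz * Real.exp v)| ≤ 27 / (2 * q) := by
  obtain ⟨r, r0, r1, rq, he, hX, hX0, hlo, hhi, hJa, hv1, -⟩ := apT_algA_basic hp hc hg
  have hq0 : (0 : ℝ) < q := by linarith [hp.hq]
  have h2 : 27 / (2 * q) = 27 / 2 * r := by rw [rq]; field_simp
  rw [h2]
  generalize zz * Real.exp v = E at *
  have hE0 : 0 < E := by linarith
  rw [abs_div, abs_of_pos hE0, div_le_iff₀ hE0]
  have hy0 : 0 < y := by linarith [hg.y0]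
  have hy1 := hg.y1
  have hθ : |(-Ja + v1)| ≤ 62 / 5 * r + ε := by
    calc |(-Ja + v1)| ≤ |(-Ja)| + |v1| := abs_add_le _ _
      _ ≤ 62 / 5 * r + ε := by rw [abs_neg]; linarith
  have hy3 : y ^ 3 ≤ 1 := pow_le_one₀ hy0.le hy1.le
  have hy3' : 0 ≤ y ^ 3 := by positivity
  have hnum : |2 * y * X + y ^ 3 * (-Ja + v1)| ≤ 2 * X + (62 / 5 * r + ε) := by
    calc |2 * y * X + y ^ 3 * (-Ja + v1)| ≤ |2 * y * X| + |y ^ 3 * (-Ja + v1)| := abs_add_le _ _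
      _ = 2 * y * X + y ^ 3 * |(-Ja + v1)| := by
          rw [abs_of_nonneg (by positivity), abs_mul, abs_of_nonneg hy3']
      _ ≤ 2 * X + (62 / 5 * r + ε) := by
          have h1 : 2 * y * X ≤ 2 * X := by nlinarith
          have h2 : y ^ 3 * |(-Ja + v1)| ≤ 1 * |(-Ja + v1)| :=
            mul_le_mul_of_nonneg_right hy3 (abs_nonneg _)
          linarith
  nlinarith

theorem apT_algT (hp : ProfNum q s zz Q Q2 P Ja Ja2) (hc : CorNum ε s u v u1 u2 v1 v2)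
    (hg : GeoNum q ε y X) :
    |(4 * y ^ 2 * X - 2 * X ^ 2 - 5 * y ^ 2 * X * (-Ja + v1) + y ^ 4 * (-Ja2 + v2)
        - y ^ 4 * (-Ja + v1) ^ 2) / (zz * Real.exp v)| ≤ 50 := by
  obtain ⟨r, r0, r1, rq, he, hX, hX0, hlo, hhi, hJa, hv1, hv2⟩ := apT_algA_basic hp hc hg
  generalize zz * Real.exp v = E at *
  have hE0 : 0 < E := by linarith
  rw [abs_div, abs_of_pos hE0, div_le_iff₀ hE0]
  have hy0 : 0 < y := by linarith [hg.y0]
  have hy1 := hg.y1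
  have e0 := hg.e0
  have hθ : |(-Ja + v1)| ≤ 1 / 8 := by
    calc |(-Ja + v1)| ≤ |(-Ja)| + |v1| := abs_add_le _ _
      _ ≤ 62 / 5 * r + ε := by rw [abs_neg]; linarith
      _ ≤ 1 / 8 := by linarith
  have hθ2 : |(-Ja2 + v2)| ≤ 35 := by
    calc |(-Ja2 + v2)| ≤ |(-Ja2)| + |v2| := abs_add_le _ _
      _ ≤ 34 + ε := by rw [abs_neg]; linarith [hp.Ja2_abs]
      _ ≤ 35 := by linarith
  generalize (-Ja + v1) = θ at *
  generalize (-Ja2 + v2) = θ2 at *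
  have hy2 : y ^ 2 = 1 - X := by linarith [hg.X_eq]
  have hy4 : y ^ 4 = (1 - X) ^ 2 := by rw [← hy2]; ring
  rw [hy2, hy4]
  have hX1 : X ≤ 1 / 100000 := by linarith
  obtain ⟨a1, a2⟩ := abs_le.mp hθ
  obtain ⟨b1, b2⟩ := abs_le.mp hθ2
  have hw0 : 0 ≤ (1 - X) ^ 2 := by positivity
  have hw1 : (1 - X) ^ 2 ≤ 1 := by nlinarith
  have hE : (97 : ℝ) / 100 ≤ E := by linarith
  have t1 : |4 * (1 - X) * X| ≤ 1 / 100 := by
    rw [abs_le]; constructor <;> nlinarith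
  have t2 : |2 * X ^ 2| ≤ 1 / 100 := by
    rw [abs_le]; constructor <;> nlinarith
  have t3 : |5 * (1 - X) * X * θ| ≤ 1 / 100 := by
    rw [abs_mul]
    have h1 : |5 * (1 - X) * X| ≤ 5 / 100000 := by
      rw [abs_le]; constructor <;> nlinarith
    calc |5 * (1 - X) * X| * |θ| ≤ 5 / 100000 * (1 / 8) :=
          mul_le_mul h1 hθ (abs_nonneg _) (by norm_num)
      _ ≤ 1 / 100 := by norm_num
  have t4 : |(1 - X) ^ 2 * θ2| ≤ 35 := by
    rw [abs_mul, abs_of_nonneg hw0]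
    calc (1 - X) ^ 2 * |θ2| ≤ 1 * 35 := mul_le_mul hw1 hθ2 (abs_nonneg _) (by norm_num)
      _ = 35 := by norm_num
  have t5 : |(1 - X) ^ 2 * θ ^ 2| ≤ 1 / 64 := by
    rw [abs_mul, abs_of_nonneg hw0, abs_of_nonneg (by positivity)]
    have h1 : θ ^ 2 ≤ 1 / 64 := by nlinarith
    calc (1 - X) ^ 2 * θ ^ 2 ≤ 1 * (1 / 64) := mul_le_mul hw1 h1 (by positivity) (by norm_num)
      _ = 1 / 64 := by norm_num
  have key : |4 * (1 - X) * X - 2 * X ^ 2 - 5 * (1 - X) * X * θ + (1 - X) ^ 2 * θ2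
      - (1 - X) ^ 2 * θ ^ 2| ≤ 36 := by
    obtain ⟨c1, c2⟩ := abs_le.mp t1
    obtain ⟨c3, c4⟩ := abs_le.mp t2
    obtain ⟨c5, c6⟩ := abs_le.mp t3
    obtain ⟨c7, c8⟩ := abs_le.mp t4
    obtain ⟨c9, c10⟩ := abs_le.mp t5
    rw [abs_le]; constructor <;> linarith
  linarith

end

end Claimed.Agent.R324.Core
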