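/-
Row 324 (S0582), PDE core, module AP, sub-module AP-T (explicit bounds near the tip; sub-architect helper838; plan: Core/AP/PlanT.lean, items 4, 6).      FILE T/AlgB:  X w', X² w'', exp(-u).
      PURE REAL ALGEBRA.   Hypotheses (structures of T/Num.lean):   `ProfNum q s zz Q Q2 P Ja Ja2`  (q ≥ 100, 0 ≤ s ≤ 1, 1-2/(q-1) ≤ zz ≤ 1, 0 ≤ Q ≤ 2, 0 ≤ Q2 ≤ 8, 0 ≤ P ≤ q-1, |Ja| ≤ 62/(5q), |Ja2| ≤ 34, Q ≤ 2.02 s, Ja ≥ -Q/10),
      `CorNum ε s u v u1 u2 v1 v2`  (all six ≤ ε s in absolute value, hence ≤ ε),    `GeoNum q ε y X`  (0 ≤ ε ≤ 1/(1000 q) ≤ 10⁻⁵, 19/20 < y < 1, X = 1 - y² ∈ (0, 1/(1000 q)]).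
      exp:  `Real.abs_exp_sub_one_le : |x| ≤ 1 → |exp x - 1| ≤ 2 |x|`,  `Real.add_one_le_exp`,  `Real.exp_pos`.        Advice: first `obtain` bounds  e_lo ≤ exp v ≤ e_hi, then `generalize Real.exp v = e`;   clear denominators with `div_le_iff₀`, `le_div_iff₀`, `abs_le`, `abs_div`;   1/q =: r ∈ (0, 1/100] as a new variable helps nlinarith.
* `apT_algW1`:    Q + u1 ∈ [-ε, 2+ε],  0 < y < 1.
* `apT_algW2`:    y²(Q2+u2) - (1+y²)(Q+u1) ∈ [-ε - 2(2+ε), 8 + ε + 2ε].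
* `apT_algE`:     exp(-u) ≤ 1 + 2ε ≤ 1.00002.
-/
import Claimed.Agent.R324.Core.AP.T.Num

set_option autoImplicit false

namespace Claimed.Agent.R324.Core

open Set Filter Topology
open scoped ContDiff

noncomputable section

variable {q s zz Q Q2 P Ja Ja2 ε u v u1 u2 v1 v2 y X : ℝ}

theorem apT_algB_es (hp : ProfNum q s zz Q Q2 P Ja Ja2) (hg : GeoNum q ε y X) : ε * s ≤ 1 / 100000 := by
  have h1 : (1 : ℝ) / (1000 * q) ≤ 1 / 100000 :=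
    one_div_le_one_div_of_le (by norm_num) (by linarith [hp.hq])
  exact (mul_le_of_le_one_right hg.e0 hp.s1).trans (hg.e1.trans h1)

theorem apT_algW1 (hp : ProfNum q s zz Q Q2 P Ja Ja2) (hc : CorNum ε s u v u1 u2 v1 v2)
    (hg : GeoNum q ε y X) : -(401 / 200) ≤ -y * (Q + u1) ∧ -y * (Q + u1) ≤ 1 / 200 := by
  have hes := apT_algB_es hp hg
  have h1 := abs_le.1 (hc.u1.trans hes)
  have hQ0 := hp.Q0
  have hQ2 := hp.Q_hi
  have hy0 := hg.y0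
  have hy1 := hg.y1
  constructor
  · nlinarith [mul_nonneg (sub_nonneg.2 hy1.le) (by linarith : (0 : ℝ) ≤ Q + u1 + 1 / 100000)]
  · nlinarith [mul_nonneg (by linarith : (0 : ℝ) ≤ y) (by linarith : (0 : ℝ) ≤ Q + u1 + 1 / 100000)]

theorem apT_algW2 (hp : ProfNum q s zz Q Q2 P Ja Ja2) (hc : CorNum ε s u v u1 u2 v1 v2)
    (hg : GeoNum q ε y X) : |y ^ 2 * (Q2 + u2) - (1 + y ^ 2) * (Q + u1)| ≤ 25 / 2 := by
  have hes := apT_algB_es hp hg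
  have h1 := abs_le.1 (hc.u1.trans hes)
  have h2 := abs_le.1 (hc.u2.trans hes)
  have hQ0 := hp.Q0
  have hQ2 := hp.Q_hi
  have hR0 := hp.Q2_lo
  have hR2 := hp.Q2_hi
  have hy0 := hg.y0
  have hy1 := hg.y1
  obtain ⟨Y, hY⟩ : ∃ Y : ℝ, Y = y ^ 2 := ⟨_, rfl⟩
  have hY0 : 0 ≤ Y := by rw [hY]; positivity
  have hY1 : Y ≤ 1 := by rw [hY]; nlinarith
  rw [← hY, abs_le]
  constructor
  · nlinarith [mul_nonneg hY0 (by linarith : (0 : ℝ) ≤ Q2 + u2 + 1 / 100000),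
      mul_nonneg (sub_nonneg.2 hY1) (by linarith : (0 : ℝ) ≤ Q + u1 + 1 / 100000)]
  · nlinarith [mul_nonneg (sub_nonneg.2 hY1) (by linarith : (0 : ℝ) ≤ Q2 + u2 + 1 / 100000),
      mul_nonneg hY0 (by linarith : (0 : ℝ) ≤ Q + u1 + 1 / 100000)]

theorem apT_algE (hp : ProfNum q s zz Q Q2 P Ja Ja2) (hc : CorNum ε s u v u1 u2 v1 v2)
    (hg : GeoNum q ε y X) : Real.exp (-u) ≤ 2001 / 2000 := by
  have hes := apT_algB_es hp hg
  have h1 : |-u| ≤ 1 / 100000 := by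
    rw [abs_neg]
    exact hc.u.trans hes
  have h2 := Real.abs_exp_sub_one_le (h1.trans (by norm_num))
  have h3 := (abs_le.1 h2).2
  linarith

end

end Claimed.Agent.R324.Core
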