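/-
Row 324 (S0582), PDE core, module AP, sub-module AP-T (explicit bounds near the tip; sub-architect helper838; plan: Core/AP/PlanT.lean).      FILE T/Form:  THE QUANTITIES OF TipBox / BgCL FOR  g = bgA q w z  ON THE OPEN NORTHERN STRIP  t < 0, 19/20 < y < 1.
      ζ = zeF q z,  E = exp ζ,  θ = thF ζ,  θ₂ = thF (thF ζ),  Q̂ = thF w_tip,  Q̂₂ = thF (thF w_tip),  X = Xf y = 1 - y² ∈ (0,1),  Ξ = XiF q (t,y) = X/λ² > 0.
      Jets: Res/JetG.lean (`jg_Z, jg_dd, jg_w, jg_wp, jg_wpp`), Res/IdG.lean (`thF_jet`: thF f = -X f'/y,  `thF2_jet`: thF² f = (X² f'' - 2yX f')/y² - X² f'/y³), Res/JetW.lean, JetZ.lean (thF, thF² of w_tip, ζ), Res/RegX.lean (`X_thP1, X_thP2, zT_eq`), TipG (`exp_wtip`).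

LAYER 1 (geometry).
* `apT_Xdd`:    𝖽 = (2y - y² ζ')/E (`jg_dd`),  X ζ' = -y θ (`thF_jet`).
* `apT_ttXdd`:  the slice s ↦ X(s) 𝖽(t,s) equals  F(s) = X(s) (2s - s² ζ'(t,s))/exp ζ(t,s)  on the open interval (19/20,1) ∋ y (`jg_dd`; `tt_congr`, Core/W/TtCalc.lean, or `Filter.EventuallyEq.deriv_eq`);   tt F y = -(1-y²) F'(y);
                HasDerivAt:  X' = -2y (`hasDerivAt_Xf`),  (ζ')' = ζ'' , (exp ζ)' = E ζ' (`Sm.hasDerivAt_y` for ζ and dY ζ; Sm ζ: `BP.ap_sm_zeF`);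
                -X F' = (-2X² + 4y²X + 2yX²ζ' - 2y³Xζ' + y²X²ζ'')/E + X F ζ';       X ζ' = -y θ,   X² ζ'' = y² θ₂ - (1+y²) θ  (from `thF_jet`, `thF2_jet`);    1 - y² = X.      field_simp; ring / linear_combination.     (pattern: `BP.dY_WA_strip`, Res/JetV.lean.)
* `apT_Xwp`, `apT_Xwpp`:  `jg_wp, jg_wpp`, `thF_jet`, `thF2_jet` (Sm: `BP.sm_wtip`).
* `apT_Xap`:    a' = Z 𝖽 (`Bg.ap`), `jg_Z`, `apT_Xdd`.
LAYER 2 (profile + correction).
* `apT_th_ze` …:  `thF_zeF` + `X_thP1` etc.;   th (th w) = -th J (`th_bJ`).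
* `apT_Xew`:    `jg_w`, `exp_wtip`:  exp(-w_tip) = Λ^(-2γ) exp(-w(Ξ)) exp(-u);   X Λ^(-2γ) = Ξ  (XiF, lam2; `Real.rpow_neg`);   P = Ξ exp(-w(Ξ)) (bP).
* `apT_ell`:    100 ℓ² Ξ = (q-1) λ² Ξ = (q-1) X.          `apT_s`:   X/(ℓ²+X) = Ξ/((q-1)/100 + Ξ)   (X = Ξ λ², λ² > 0).
-/
import Claimed.Agent.R324.Core.AP.Res.IdG
import Claimed.Agent.R324.Core.AP.Res.RegX
import Claimed.Agent.R324.Core.AP.Res.JetW
import Claimed.Agent.R324.Core.AP.Res.JetZ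
import Claimed.Agent.R324.Core.W.TtCalc

set_option autoImplicit false

namespace Claimed.Agent.R324.Core

open Set Filter Topology
open scoped ContDiff

noncomputable section

variable {t y : ℝ} {q : ℕ} {w z : ℝ → ℝ}

theorem apT_y_ne (hy : y ∈ Ioo (19 / 20 : ℝ) 1) : y ≠ 0 := by
  have := hy.1
  intro h0
  rw [h0] at this
  norm_num at this

/-! ### layer 1 -/

theorem BP.apT_Xdd (h : BP q w z) (ht : t < 0) (hy : y ∈ Ioo (19 / 20 : ℝ) 1) :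
    Xf y * (bgA q w z).dd (t, y)
      = (2 * y * Xf y + y ^ 3 * thF (zeF q z) (t, y)) / Real.exp (zeF q z (t, y)) := by
  have hy0 := apT_y_ne hy
  rw [h.jg_dd ht hy, thF_jet]
  field_simp
  ring

theorem BP.apT_ttXdd (h : BP q w z) (ht : t < 0) (hy : y ∈ Ioo (19 / 20 : ℝ) 1) :
    tt (fun s => Xf s * (bgA q w z).dd (t, s)) y
      = (4 * y ^ 2 * Xf y - 2 * Xf y ^ 2 - 5 * y ^ 2 * Xf y * thF (zeF q z) (t, y)
          + y ^ 4 * thF (thF (zeF q z)) (t, y) - y ^ 4 * thF (zeF q z) (t, y) ^ 2)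
        / Real.exp (zeF q z (t, y)) := by
  have hy0 := apT_y_ne hy
  have hz : Sm (zeF q z) := h.ap_sm_zeF
  have hev : (fun s => Xf s * (bgA q w z).dd (t, s)) =ᶠ[𝓝 y]
      (fun s => Xf s * ((2 * s - s ^ 2 * dY (zeF q z) (t, s)) / Real.exp (zeF q z (t, s)))) := by
    filter_upwards [Ioo_mem_nhds hy.1 hy.2] with s hs
    rw [h.jg_dd ht hs]
  have d0 := hz.hasDerivAt_y ht y
  have d1 := hz.dY.hasDerivAt_y ht y
  have dE := d0.exp
  have dN : HasDerivAt (fun s => 2 * s - s ^ 2 * dY (zeF q z) (t, s))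
      (2 - (2 * y * dY (zeF q z) (t, y) + y ^ 2 * dY (dY (zeF q z)) (t, y))) y := by
    have h2 : HasDerivAt (fun s : ℝ => 2 * s) 2 y := by
      simpa using (hasDerivAt_id y).const_mul (2 : ℝ)
    have h3 : HasDerivAt (fun s : ℝ => s ^ 2) (2 * y) y := by
      simpa using hasDerivAt_pow 2 y
    exact h2.sub (h3.mul d1)
  have dF := (hasDerivAt_Xf y).mul (dN.div dE (Real.exp_ne_zero _))
  have hE := Real.exp_ne_zero (zeF q z (t, y))
  have dF' : deriv (fun s => Xf s * ((2 * s - s ^ 2 * dY (zeF q z) (t, s)) / Real.exp (zeF q z (t, s)))) y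
      = -2 * y * ((2 * y - y ^ 2 * dY (zeF q z) (t, y)) / Real.exp (zeF q z (t, y)))
        + Xf y * (((2 - (2 * y * dY (zeF q z) (t, y) + y ^ 2 * dY (dY (zeF q z)) (t, y))) * Real.exp (zeF q z (t, y))
            - (2 * y - y ^ 2 * dY (zeF q z) (t, y)) * (Real.exp (zeF q z (t, y)) * dY (zeF q z) (t, y)))
          / Real.exp (zeF q z (t, y)) ^ 2) :=
    dF.deriv
  rw [tt_congr hev, tt_eq_Xf, dF', thF2_jet hz ht hy0, thF_jet]
  have hX : Xf y = 1 - y ^ 2 := rfl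
  field_simp
  rw [hX]
  ring

theorem apT_Xwp (q : ℝ) (w z : ℝ → ℝ) (t : ℝ) (hy : y ∈ Ioo (19 / 20 : ℝ) 1) :
    Xf y * (bgA q w z).wp (t, y) = -y * thF (wtip q w) (t, y) := by
  have hy0 := apT_y_ne hy
  rw [jg_wp q w z t hy.1, thF_jet]
  field_simp

theorem BP.apT_Xwpp (h : BP q w z) (ht : t < 0) (hy : y ∈ Ioo (19 / 20 : ℝ) 1) :
    Xf y ^ 2 * (bgA q w z).wpp (t, y)
      = y ^ 2 * thF (thF (wtip q w)) (t, y) - (1 + y ^ 2) * thF (wtip q w) (t, y) := by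
  have hy0 := apT_y_ne hy
  rw [jg_wpp (q : ℝ) w z t hy.1, thF2_jet h.sm_wtip ht hy0, thF_jet]
  have hX : Xf y = 1 - y ^ 2 := rfl
  field_simp
  rw [hX]
  ring

theorem BP.apT_Xap (h : BP q w z) (ht : t < 0) (hy : y ∈ Ioo (19 / 20 : ℝ) 1) :
    Xf y * (bgA q w z).ap (t, y) = 2 * Xf y / y + y * thF (zeF q z) (t, y) := by
  have hy0 := apT_y_ne hy
  have h1 := h.apT_Xdd ht hy
  have e : Xf y * (bgA q w z).ap (t, y) = (bgA q w z).Z (t, y) * (Xf y * (bgA q w z).dd (t, y)) := by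
    unfold Bg.ap
    ring
  rw [e, h1, jg_Z (q : ℝ) w z t hy]
  have hE := Real.exp_ne_zero (zeF q z (t, y))
  field_simp

/-! ### layer 2 -/

theorem BP.apT_th_ze (h : BP q w z) (ht : t < 0) (hy : y ≠ 0) :
    thF (zeF q z) (t, y) = -bJa z (XiF q (t, y)) + Xf y * thP1 q (bJa z) (aZ q) (t, y) := by
  rw [h.thF_zeF ht hy, X_thP1 q (bJa z) (aZ q) ht y]

theorem BP.apT_th2_ze (h : BP q w z) (ht : t < 0) (hy : y ≠ 0) :
    thF (thF (zeF q z)) (t, y)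
      = -th (bJa z) (XiF q (t, y)) + Xf y * thP2 q (bJa z) (aZ q) (t, y) := by
  rw [h.thF2_zeF ht hy, X_thP2 q (bJa z) (aZ q) ht y]

theorem BP.apT_th_w (h : BP q w z) (ht : t < 0) (hy : y ≠ 0) :
    thF (wtip q w) (t, y) = th w (XiF q (t, y)) + Xf y * thP1 q (bJ w) (aW q) (t, y) := by
  rw [h.thF_wtip ht hy, X_thP1 q (bJ w) (aW q) ht y]

theorem BP.apT_th2_w (h : BP q w z) (ht : t < 0) (hy : y ≠ 0) :
    thF (thF (wtip q w)) (t, y)
      = th (th w) (XiF q (t, y)) + Xf y * thP2 q (bJ w) (aW q) (t, y) := by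
  rw [h.thF2_wtip ht hy, X_thP2 q (bJ w) (aW q) ht y, th_bJ, neg_neg]

theorem BP.apT_E (h : BP q w z) (ht : t < 0) (y : ℝ) :
    Real.exp (zeF q z (t, y)) = z (XiF q (t, y)) * Real.exp (uZF q z (t, y)) :=
  h.zT_eq ht y

theorem BP.apT_Xew (h : BP q w z) (ht : t < 0) (hy : 19 / 20 < y) :
    Xf y * Real.exp (-(bgA q w z).w (t, y))
      = bP w (XiF q (t, y)) * Real.exp (-uWF q w (t, y)) := by
  have hl : 0 < -t := by linarith
  rw [jg_w (q : ℝ) w z t hy, h.exp_wtip ht y]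
  unfold atm bP XiF lam2
  simp only []
  rw [Real.rpow_neg hl.le]
  ring

theorem apT_Xi_pos (q : ℝ) (ht : t < 0) (hy : y ∈ Ioo (19 / 20 : ℝ) 1) : 0 < XiF q (t, y) := by
  have hl : 0 < -t := by linarith
  unfold XiF lam2
  exact div_pos (ap_jg_X_pos hy) (Real.rpow_pos_of_pos hl _)

theorem apT_ell (q : ℝ) (ht : t < 0) (y : ℝ) :
    100 * ell2 q t * XiF q (t, y) = (q - 1) * Xf y := by
  have hl : 0 < -t := by linarith
  have hp : lam2 q t ≠ 0 := (Real.rpow_pos_of_pos hl _).ne'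
  unfold ell2 XiF
  simp only []
  field_simp

theorem apT_s (q : ℝ) (ht : t < 0) (y : ℝ) :
    Xf y / (ell2 q t + Xf y) = XiF q (t, y) / ((q - 1) / 100 + XiF q (t, y)) := by
  have hl : 0 < -t := by linarith
  have hp : lam2 q t ≠ 0 := (Real.rpow_pos_of_pos hl _).ne'
  have e1 : Xf y = lam2 q t * XiF q (t, y) := by
    unfold XiF
    simp only []
    field_simp
  have e2 : ell2 q t + Xf y = lam2 q t * ((q - 1) / 100 + XiF q (t, y)) := by
    rw [e1]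
    unfold ell2
    ring
  rw [e2]
  conv_lhs => rw [e1]
  exact mul_div_mul_left _ _ hp

end

end Claimed.Agent.R324.Core
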