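/-
Row 324 (S0582), PDE core, module AP, sub-module AP-T (explicit bounds near the tip; sub-architect helper838; plan: Core/AP/PlanT.lean).      FILE T/Wt:  THE DOMAIN OF AP-T;  X wt 1 7 0 = s wt 1 7 1.
      R = rh2 q t y = ℓ² + X̃,   ℓ² = ell2 q t = c Λ^(2γ),  c = (q-1)/100,  Λ = -t ∈ (0,1],  γ = gaF q = 8/α,  α = alF q = bAl q ∈ (2,3) (`bAl_bounds`),  Θ = Th t y = Λ + X̃,   X̃ = Xt y = Xf y =: X ∈ [0,3/4] for y ∈ [1/2,1] (`Xt_eq`).
      wt q a b c p = (R^(-α/2))^a * Θ^b * R^c  (a : ℕ, b c : ℤ; Cal/WtA.lean).        PATTERN: the proof of `JJ_le` (Cal/WtB.lean) has exactly these two cases and all the rpow manipulations.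

* `apT_X_wt`:       y ≥ 1/2:  R = ℓ² + X (`Xt_eq`),   wt 1 7 1 = wt 1 7 0 * R  (unfold wt; `zpow_one`, `zpow_zero`),  so  X wt 1 7 0 = (X/R) wt 1 7 1  (R > 0).
* `apT_X2_wt`:      wt 1 7 (-1) = wt 1 7 1 / R²  (`zpow_neg_one`…),   X² wt 1 7 (-1) = (X/R)² wt 1 7 1.
-/
import Claimed.Agent.R324.Core.AP.BgA4

set_option autoImplicit false

namespace Claimed.Agent.R324.Core

open Set Filter Topology
open scoped ContDiff

noncomputable section

variable {q t y : ℝ}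

/-- the domain of AP-T. -/
def DomT : Set (ℝ × ℝ) := Dm 1 (Icc (1 / 2 : ℝ) 1)

/-- hygiene. -/
theorem core_ap_T_wt_hygiene : True := by
  have := @DomT.eq_1
  trivial

theorem apT_domOK : DomOK DomT :=
  domOK_Dm le_rfl (fun y hy => ⟨by linarith [hy.1], hy.2⟩)

theorem apT_domN : DomN DomT := fun p hp => by
  have := hp.2.1
  linarith

theorem apT_mem (ht : t ∈ Ico (-1 : ℝ) 0) (hy : y ∈ Icc (1 / 2 : ℝ) 1) : ((t, y) : ℝ × ℝ) ∈ DomT := ⟨ht, hy⟩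

theorem apT_X_wt (hq : 100 ≤ q) (ht : t ∈ Ico (-1 : ℝ) 0) (hy : y ∈ Icc (1 / 2 : ℝ) 1) :
    Xf y * wt q 1 7 0 (t, y) = Xf y / (ell2 q t + Xf y) * wt q 1 7 1 (t, y) := by
  have hR : 0 < rh2 q t y := rh2_pos_dom (by linarith) apT_domOK (apT_mem ht hy)
  have hRe : rh2 q t y = ell2 q t + Xf y := by
    unfold rh2
    rw [Xt_eq hy.1]
  rw [← hRe]
  unfold wt
  simp only [zpow_one, zpow_zero, mul_one]
  field_simp

theorem apT_X2_wt (hq : 100 ≤ q) (ht : t ∈ Ico (-1 : ℝ) 0) (hy : y ∈ Icc (1 / 2 : ℝ) 1) :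
    Xf y ^ 2 * wt q 1 7 (-1) (t, y) = (Xf y / (ell2 q t + Xf y)) ^ 2 * wt q 1 7 1 (t, y) := by
  have hR : 0 < rh2 q t y := rh2_pos_dom (by linarith) apT_domOK (apT_mem ht hy)
  have hRe : rh2 q t y = ell2 q t + Xf y := by
    unfold rh2
    rw [Xt_eq hy.1]
  rw [← hRe]
  unfold wt
  simp only [zpow_one, zpow_neg_one]
  field_simp

/-- `0 ≤ s ≤ 1`. -/
theorem apT_s_mem (hq : 100 ≤ q) (ht : t < 0) (hy : y ∈ Icc (1 / 2 : ℝ) 1) :
    0 ≤ Xf y / (ell2 q t + Xf y) ∧ Xf y / (ell2 q t + Xf y) ≤ 1 := by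
  have hX : 0 ≤ Xf y := by
    unfold Xf
    nlinarith [hy.1, hy.2]
  have hl : 0 < ell2 q t := by
    unfold ell2 lam2
    have h1 : 0 < (-t) ^ (2 * gaF q) := Real.rpow_pos_of_pos (by linarith) _
    have h2 : 0 < (q - 1) / 100 := by linarith
    exact mul_pos h2 h1
  have hd : 0 < ell2 q t + Xf y := by linarith
  exact ⟨div_nonneg hX hd.le, (div_le_one hd).2 (by linarith)⟩

end

end Claimed.Agent.R324.Core
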