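/-
Row 324 (S0582), PDE core, module AP, sub-module AP-T (explicit bounds near the tip; sub-architect helper838; plan: Core/AP/PlanT.lean).      FILE T/Small:  THE CORRECTIONS u, v, th u, th² u, th v, th² v, X W, X² ∂_y W ARE SMALL NEAR THE NORTH POLE.
      s = X/(ℓ²+X) = X/r̂² ∈ [0,1],   u = uWF = X uW1,  v = uZF = X uZ1,  th u = X thP1 (bJ w) (aW q),  th² u = X thP2 …,  th v = X thP1 (bJa z) (aZ q), …        all the factors are in TS (wt 1 7 0) (TipD `ts_uW1, ts_uZ1`, Res/TsA `ts_thP1, ts_thP2`, TipF `ts_WA`).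
* `apT_small_gen`:    |f| ≤ C wt 1 7 0 on DomT;   X ≥ 0;   |X f| ≤ C X wt 1 7 0 = C s wt 1 7 1 (`apT_X_wt`) ≤ C s K Θ (`apT_wt171_le`),   Θ = Λ + X ≤ 2δ  (`Th`, `Xt_eq`);     δ := min 1 (ε/(2 (C K + 1))).
* `apT_small_gen2`:   |f| ≤ C wt 1 7 (-1);   |X² f| ≤ C s² wt 1 7 1 ≤ C K Θ  (`apT_X2_wt`, `apT_s_mem`).
* `BP.apT_small`:     δ := the minimum of the eight δ's.
-/
import Claimed.Agent.R324.Core.AP.T.Wt
import Claimed.Agent.R324.Core.AP.T.Wt1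
import Claimed.Agent.R324.Core.AP.Res.TsA

set_option autoImplicit false

namespace Claimed.Agent.R324.Core

open Set Filter Topology
open scoped ContDiff

noncomputable section

/-- all the corrections at the point `(t,y)` are `≤ ε s`, resp. `≤ ε`. -/
structure SmallAt (q : ℝ) (w z : ℝ → ℝ) (ε t y : ℝ) : Prop where
  u : |uWF q w (t, y)| ≤ ε * (Xf y / (ell2 q t + Xf y))
  v : |uZF q z (t, y)| ≤ ε * (Xf y / (ell2 q t + Xf y))
  u1 : |Xf y * thP1 q (bJ w) (aW q) (t, y)| ≤ ε * (Xf y / (ell2 q t + Xf y))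
  u2 : |Xf y * thP2 q (bJ w) (aW q) (t, y)| ≤ ε * (Xf y / (ell2 q t + Xf y))
  v1 : |Xf y * thP1 q (bJa z) (aZ q) (t, y)| ≤ ε * (Xf y / (ell2 q t + Xf y))
  v2 : |Xf y * thP2 q (bJa z) (aZ q) (t, y)| ≤ ε * (Xf y / (ell2 q t + Xf y))
  W : |Xf y * WA q w z (t, y)| ≤ ε
  W1 : |Xf y ^ 2 * dY (WA q w z) (t, y)| ≤ ε

theorem apT_Xf_nonneg {y : ℝ} (hy : y ∈ Icc (1 / 2 : ℝ) 1) : 0 ≤ Xf y := by
  unfold Xf
  nlinarith [hy.1, hy.2]

theorem apT_small_gen {q : ℝ} (hq : 100 ≤ q) {f : Fn} (hf : Bd DomT (wt q 1 7 0) f) {ε : ℝ} (hε : 0 < ε) :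
    ∃ δ : ℝ, 0 < δ ∧ δ ≤ 1 ∧ ∀ t ∈ Ico (-δ) 0, ∀ y ∈ Icc (1 / 2 : ℝ) 1, Xf y ≤ δ →
      |Xf y * f (t, y)| ≤ ε * (Xf y / (ell2 q t + Xf y)) := by
  obtain ⟨C, hC, hb⟩ := hf
  obtain ⟨K, hK, hw⟩ := apT_wt171_le hq
  have hCK : 0 ≤ C * K := mul_nonneg hC hK
  have hden : 0 < 2 * (C * K + 1) := by linarith
  refine ⟨min 1 (ε / (2 * (C * K + 1))), lt_min one_pos (div_pos hε hden), min_le_left _ _, ?_⟩
  intro t ht y hy hX
  have hδ1 : min 1 (ε / (2 * (C * K + 1))) ≤ 1 := min_le_left _ _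
  have hδ2 : min 1 (ε / (2 * (C * K + 1))) ≤ ε / (2 * (C * K + 1)) := min_le_right _ _
  have ht1 : t ∈ Ico (-1 : ℝ) 0 := ⟨by linarith [ht.1], ht.2⟩
  have hX0 : 0 ≤ Xf y := apT_Xf_nonneg hy
  have hs := apT_s_mem hq ht.2 hy
  have h1 := hb (t, y) (apT_mem ht1 hy)
  have h2 := hw t ht1 y hy
  have hTh : Th t y ≤ 2 * (ε / (2 * (C * K + 1))) := by
    unfold Th
    rw [Xt_eq hy.1]
    linarith [ht.1]
  have hTh' : (C * K) * Th t y ≤ ε := by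
    have e : (C * K) * (2 * (ε / (2 * (C * K + 1)))) = ε * (C * K / (C * K + 1)) := by
      field_simp
    have h3 : C * K / (C * K + 1) ≤ 1 := (div_le_one (by linarith)).2 (by linarith)
    calc (C * K) * Th t y ≤ (C * K) * (2 * (ε / (2 * (C * K + 1)))) := mul_le_mul_of_nonneg_left hTh hCK
      _ = ε * (C * K / (C * K + 1)) := e
      _ ≤ ε * 1 := mul_le_mul_of_nonneg_left h3 hε.le
      _ = ε := mul_one ε
  rw [abs_mul, abs_of_nonneg hX0]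
  calc Xf y * |f (t, y)| ≤ Xf y * (C * wt q 1 7 0 (t, y)) := mul_le_mul_of_nonneg_left h1 hX0
    _ = C * (Xf y * wt q 1 7 0 (t, y)) := by ring
    _ = C * (Xf y / (ell2 q t + Xf y) * wt q 1 7 1 (t, y)) := by rw [apT_X_wt hq ht1 hy]
    _ = (C * wt q 1 7 1 (t, y)) * (Xf y / (ell2 q t + Xf y)) := by ring
    _ ≤ (C * (K * Th t y)) * (Xf y / (ell2 q t + Xf y)) :=
        mul_le_mul_of_nonneg_right (mul_le_mul_of_nonneg_left h2 hC) hs.1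
    _ = ((C * K) * Th t y) * (Xf y / (ell2 q t + Xf y)) := by ring
    _ ≤ ε * (Xf y / (ell2 q t + Xf y)) := mul_le_mul_of_nonneg_right hTh' hs.1

theorem apT_small_gen2 {q : ℝ} (hq : 100 ≤ q) {f : Fn} (hf : Bd DomT (wt q 1 7 (-1)) f) {ε : ℝ} (hε : 0 < ε) :
    ∃ δ : ℝ, 0 < δ ∧ δ ≤ 1 ∧ ∀ t ∈ Ico (-δ) 0, ∀ y ∈ Icc (1 / 2 : ℝ) 1, Xf y ≤ δ →
      |Xf y ^ 2 * f (t, y)| ≤ ε := by
  obtain ⟨C, hC, hb⟩ := hf
  obtain ⟨K, hK, hw⟩ := apT_wt171_le hq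
  have hCK : 0 ≤ C * K := mul_nonneg hC hK
  have hden : 0 < 2 * (C * K + 1) := by linarith
  refine ⟨min 1 (ε / (2 * (C * K + 1))), lt_min one_pos (div_pos hε hden), min_le_left _ _, ?_⟩
  intro t ht y hy hX
  have hδ1 : min 1 (ε / (2 * (C * K + 1))) ≤ 1 := min_le_left _ _
  have hδ2 : min 1 (ε / (2 * (C * K + 1))) ≤ ε / (2 * (C * K + 1)) := min_le_right _ _
  have ht1 : t ∈ Ico (-1 : ℝ) 0 := ⟨by linarith [ht.1], ht.2⟩
  have hX0 : 0 ≤ Xf y := apT_Xf_nonneg hy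
  have hs := apT_s_mem hq ht.2 hy
  have hs2 : (Xf y / (ell2 q t + Xf y)) ^ 2 ≤ 1 := pow_le_one₀ hs.1 hs.2
  have hs20 : 0 ≤ (Xf y / (ell2 q t + Xf y)) ^ 2 := sq_nonneg _
  have h1 := hb (t, y) (apT_mem ht1 hy)
  have h2 := hw t ht1 y hy
  have hTh0 : 0 ≤ Th t y := by
    unfold Th
    rw [Xt_eq hy.1]
    linarith [ht.2]
  have hTh : Th t y ≤ 2 * (ε / (2 * (C * K + 1))) := by
    unfold Th
    rw [Xt_eq hy.1]
    linarith [ht.1]
  have hTh' : (C * K) * Th t y ≤ ε := by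
    have e : (C * K) * (2 * (ε / (2 * (C * K + 1)))) = ε * (C * K / (C * K + 1)) := by
      field_simp
    have h3 : C * K / (C * K + 1) ≤ 1 := (div_le_one (by linarith)).2 (by linarith)
    calc (C * K) * Th t y ≤ (C * K) * (2 * (ε / (2 * (C * K + 1)))) := mul_le_mul_of_nonneg_left hTh hCK
      _ = ε * (C * K / (C * K + 1)) := e
      _ ≤ ε * 1 := mul_le_mul_of_nonneg_left h3 hε.le
      _ = ε := mul_one ε
  rw [abs_mul, abs_of_nonneg (sq_nonneg (Xf y))]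
  calc Xf y ^ 2 * |f (t, y)| ≤ Xf y ^ 2 * (C * wt q 1 7 (-1) (t, y)) :=
        mul_le_mul_of_nonneg_left h1 (sq_nonneg _)
    _ = C * (Xf y ^ 2 * wt q 1 7 (-1) (t, y)) := by ring
    _ = C * ((Xf y / (ell2 q t + Xf y)) ^ 2 * wt q 1 7 1 (t, y)) := by rw [apT_X2_wt hq ht1 hy]
    _ = (C * wt q 1 7 1 (t, y)) * (Xf y / (ell2 q t + Xf y)) ^ 2 := by ring
    _ ≤ (C * (K * Th t y)) * (Xf y / (ell2 q t + Xf y)) ^ 2 :=
        mul_le_mul_of_nonneg_right (mul_le_mul_of_nonneg_left h2 hC) hs20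
    _ ≤ (C * (K * Th t y)) * 1 :=
        mul_le_mul_of_nonneg_left hs2 (mul_nonneg hC (mul_nonneg hK hTh0))
    _ = (C * K) * Th t y := by ring
    _ ≤ ε := hTh'

variable {q : ℕ} {w z : ℝ → ℝ}

theorem BP.apT_small (h : BP q w z) {ε : ℝ} (hε : 0 < ε) :
    ∃ δ : ℝ, 0 < δ ∧ δ ≤ 1 ∧ ∀ t ∈ Ico (-δ) 0, ∀ y ∈ Icc (1 / 2 : ℝ) 1, Xf y ≤ δ →
      SmallAt q w z ε t y := by
  have hq := h.hqR
  have hD := apT_domOK
  have hN := apT_domN
  obtain ⟨d1, p1, l1, b1⟩ := apT_small_gen hq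
    (h.ts_uW1 (m := 0) (n := 0) hD hN (by norm_num)).bd.bd0 hε
  obtain ⟨d2, p2, l2, b2⟩ := apT_small_gen hq
    (h.ts_uZ1 (m := 0) (n := 0) hD hN (by norm_num)).bd.bd0 hε
  obtain ⟨d3, p3, l3, b3⟩ := apT_small_gen hq
    (h.ts_thP1 (m := 0) (n := 0) hD hN (by norm_num) h.slow_J (aW q)).bd.bd0 hε
  obtain ⟨d4, p4, l4, b4⟩ := apT_small_gen hq
    (h.ts_thP2 (m := 0) (n := 0) hD hN (by norm_num) h.slow_J (aW q)).bd.bd0 hε
  obtain ⟨d5, p5, l5, b5⟩ := apT_small_gen hq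
    (h.ts_thP1 (m := 0) (n := 0) hD hN (by norm_num) h.slow_Ja (aZ q)).bd.bd0 hε
  obtain ⟨d6, p6, l6, b6⟩ := apT_small_gen hq
    (h.ts_thP2 (m := 0) (n := 0) hD hN (by norm_num) h.slow_Ja (aZ q)).bd.bd0 hε
  obtain ⟨d7, p7, l7, b7⟩ := apT_small_gen hq
    (h.ts_WA (m := 0) (n := 0) hD hN (by norm_num)).bd.bd0 hε
  have hW1 : TS q DomT 0 0 (wt q 1 7 (-1)) (dY (WA q w z)) :=
    ap_ts_cast rfl rfl (by norm_num) (TS.dY_wt hq hD (h.ts_WA (m := 0) (n := 1) hD hN (by norm_num)))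
  obtain ⟨d8, p8, l8, b8⟩ := apT_small_gen2 hq hW1.bd.bd0 hε
  refine ⟨min (min (min d1 d2) (min d3 d4)) (min (min d5 d6) (min d7 d8)), by positivity,
    (min_le_left _ _).trans ((min_le_left _ _).trans ((min_le_left _ _).trans l1)), ?_⟩
  intro t ht y hy hX
  set δ := min (min (min d1 d2) (min d3 d4)) (min (min d5 d6) (min d7 d8)) with hδ
  have e1 : δ ≤ d1 := (min_le_left _ _).trans ((min_le_left _ _).trans (min_le_left _ _))
  have e2 : δ ≤ d2 := (min_le_left _ _).trans ((min_le_left _ _).trans (min_le_right _ _))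
  have e3 : δ ≤ d3 := (min_le_left _ _).trans ((min_le_right _ _).trans (min_le_left _ _))
  have e4 : δ ≤ d4 := (min_le_left _ _).trans ((min_le_right _ _).trans (min_le_right _ _))
  have e5 : δ ≤ d5 := (min_le_right _ _).trans ((min_le_left _ _).trans (min_le_left _ _))
  have e6 : δ ≤ d6 := (min_le_right _ _).trans ((min_le_left _ _).trans (min_le_right _ _))
  have e7 : δ ≤ d7 := (min_le_right _ _).trans ((min_le_right _ _).trans (min_le_left _ _))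
  have e8 : δ ≤ d8 := (min_le_right _ _).trans ((min_le_right _ _).trans (min_le_right _ _))
  have mem : ∀ d : ℝ, δ ≤ d → t ∈ Ico (-d) 0 := fun d hd => ⟨by linarith [ht.1], ht.2⟩
  have hs := apT_s_mem hq ht.2 hy
  refine ⟨b1 t (mem d1 e1) y hy (hX.trans e1), b2 t (mem d2 e2) y hy (hX.trans e2),
    b3 t (mem d3 e3) y hy (hX.trans e3), b4 t (mem d4 e4) y hy (hX.trans e4),
    b5 t (mem d5 e5) y hy (hX.trans e5), b6 t (mem d6 e6) y hy (hX.trans e6), ?_,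
    b8 t (mem d8 e8) y hy (hX.trans e8)⟩
  refine (b7 t (mem d7 e7) y hy (hX.trans e7)).trans ?_
  calc ε * (Xf y / (ell2 q t + Xf y)) ≤ ε * 1 := mul_le_mul_of_nonneg_left hs.2 hε.le
    _ = ε := mul_one ε

end

end Claimed.Agent.R324.Core
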