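/-
Row 324 (S0582), PDE core, module AP, sub-module AP-T (explicit bounds near the tip; sub-architect helper838; plan: Core/AP/PlanT.lean, item 4).      FILE T/BoxG:  THE BOX WITH MARGINS FOR  g = bgA q w z  ITSELF  (assembly of T/Form, T/Small, T/Num, T/AlgA, T/AlgB).
-/
import Claimed.Agent.R324.Core.AP.T.Form
import Claimed.Agent.R324.Core.AP.T.Small
import Claimed.Agent.R324.Core.AP.T.AlgA
import Claimed.Agent.R324.Core.AP.T.AlgB

set_option autoImplicit false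

namespace Claimed.Agent.R324.Core

open Set Filter Topology
open scoped ContDiff

noncomputable section

/-- the conjunction of `TipBox` at one point, with margins. -/
structure BoxM (q : ℝ) (g : Bg) (t y : ℝ) : Prop where
  Z : |g.Z (t, y) - 1| ≤ 5 / (2 * q)
  D : |Xf y * g.dd (t, y)| ≤ 27 / (2 * q)
  T : |tt (fun z => Xf z * g.dd (t, z)) y| ≤ 50
  w1_lo : -(401 / 200) ≤ Xf y * g.wp (t, y)
  w1_hi : Xf y * g.wp (t, y) ≤ 1 / 200
  w2 : |Xf y ^ 2 * g.wpp (t, y)| ≤ 25 / 2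
  e : Xf y * Real.exp (-g.w (t, y)) ≤ 2001 / 2000 * (q - 1)
  el : Xf y * Real.exp (-g.w (t, y)) * (100 * ell2 q t) ≤ 2001 / 2000 * (q - 1) * Xf y
  W : |Xf y * g.W (t, y)| ≤ 1 / 200
  W1 : |Xf y ^ 2 * dY g.W (t, y)| ≤ 1 / 200

variable {q : ℕ} {w z : ℝ → ℝ} {ε t y : ℝ}

theorem SmallAt.apT_cor (hs : SmallAt q w z ε t y) :
    CorNum ε (Xf y / (ell2 q t + Xf y)) (uWF q w (t, y)) (uZF q z (t, y))
      (Xf y * thP1 q (bJ w) (aW q) (t, y)) (Xf y * thP2 q (bJ w) (aW q) (t, y))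
      (Xf y * thP1 q (bJa z) (aZ q) (t, y)) (Xf y * thP2 q (bJa z) (aZ q) (t, y)) :=
  ⟨hs.u, hs.v, hs.u1, hs.u2, hs.v1, hs.v2⟩

theorem BP.apT_prof' (h : BP q w z) (ht : t < 0) (hy : y ∈ Ioo (19 / 20 : ℝ) 1) :
    ProfNum q (Xf y / (ell2 q t + Xf y)) (z (XiF q (t, y))) (th w (XiF q (t, y)))
      (th (th w) (XiF q (t, y))) (bP w (XiF q (t, y))) (bJa z (XiF q (t, y)))
      (th (bJa z) (XiF q (t, y))) := by
  rw [apT_s (q : ℝ) ht y]
  exact h.apT_prof (apT_Xi_pos (q : ℝ) ht hy)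

theorem BP.apT_boxM_pt (h : BP q w z) (ht : t < 0) (hy : y ∈ Ioo (19 / 20 : ℝ) 1)
    (hg : GeoNum q ε y (Xf y)) (hs : SmallAt q w z ε t y) : BoxM q (bgA q w z) t y := by
  have hq := h.hqR
  have hy0 := apT_y_ne hy
  have hp := h.apT_prof' ht hy
  have hc := hs.apT_cor
  have hX := ap_jg_X_pos hy
  have hΞ := apT_Xi_pos (q : ℝ) ht hy
  have hε : ε ≤ 1 / 200 := by
    refine hg.e1.trans ?_
    rw [div_le_div_iff₀ (by positivity) (by norm_num)]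
    linarith
  have hE := apT_algE hp hc hg
  have hP := h.bohm.P_bounds h.hq _ hΞ.le
  have hex : 0 < Real.exp (-uWF q w (t, y)) := Real.exp_pos _
  have hl : 0 ≤ 100 * ell2 q t := by
    have h1 : 0 < (-t) ^ (2 * gaF q) := Real.rpow_pos_of_pos (by linarith) _
    unfold ell2 lam2
    have h2 : 0 ≤ ((q : ℝ) - 1) / 100 := by linarith
    positivity
  refine ⟨?_, ?_, ?_, ?_, ?_, ?_, ?_, ?_, ?_, ?_⟩
  · rw [jg_Z (q : ℝ) w z t hy, h.apT_E ht y]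
    exact apT_algZ hp hc hg
  · rw [h.apT_Xdd ht hy, h.apT_E ht y, h.apT_th_ze ht hy0]
    exact apT_algD hp hc hg
  · rw [h.apT_ttXdd ht hy, h.apT_E ht y, h.apT_th_ze ht hy0, h.apT_th2_ze ht hy0]
    exact apT_algT hp hc hg
  · rw [apT_Xwp (q : ℝ) w z t hy, h.apT_th_w ht hy0]
    exact (apT_algW1 hp hc hg).1
  · rw [apT_Xwp (q : ℝ) w z t hy, h.apT_th_w ht hy0]
    exact (apT_algW1 hp hc hg).2
  · rw [h.apT_Xwpp ht hy, h.apT_th_w ht hy0, h.apT_th2_w ht hy0]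
    exact apT_algW2 hp hc hg
  · rw [h.apT_Xew ht hy.1]
    calc bP w (XiF q (t, y)) * Real.exp (-uWF q w (t, y))
        ≤ ((q : ℝ) - 1) * (2001 / 2000) := mul_le_mul hP.2.1 hE hex.le (by linarith)
      _ = 2001 / 2000 * ((q : ℝ) - 1) := by ring
  · rw [h.apT_Xew ht hy.1]
    have e1 := apT_ell (q : ℝ) ht y
    calc bP w (XiF q (t, y)) * Real.exp (-uWF q w (t, y)) * (100 * ell2 q t)
        ≤ XiF q (t, y) * (2001 / 2000) * (100 * ell2 q t) :=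
          mul_le_mul_of_nonneg_right (mul_le_mul hP.2.2 hE hex.le hΞ.le) hl
      _ = 2001 / 2000 * (100 * ell2 q t * XiF q (t, y)) := by ring
      _ = 2001 / 2000 * ((q : ℝ) - 1) * Xf y := by rw [e1]; ring
  · exact hs.W.trans hε
  · exact hs.W1.trans hε

/-- **the box with margins for `bgA`** in the zone `Λ ≤ δ`, `X ≤ δ`, `19/20 < y < 1`. -/
theorem BP.apT_boxM (h : BP q w z) :
    ∃ δ : ℝ, 0 < δ ∧ δ ≤ 1 ∧ ∀ t ∈ Ico (-δ) 0, ∀ y ∈ Ioo (19 / 20 : ℝ) 1, Xf y ≤ δ →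
      GeoNum q (1 / (1000 * (q : ℝ))) y (Xf y) ∧ SmallAt q w z (1 / (1000 * (q : ℝ))) t y
        ∧ BoxM q (bgA q w z) t y := by
  have hq := h.hqR
  have hε : 0 < 1 / (1000 * (q : ℝ)) := by positivity
  obtain ⟨δ, hδ, hδ1, hb⟩ := h.apT_small hε
  refine ⟨min δ (1 / (1000 * (q : ℝ))), lt_min hδ hε, (min_le_left _ _).trans hδ1, ?_⟩
  intro t ht y hy hX
  have hs := hb t ⟨by linarith [ht.1, min_le_left δ (1 / (1000 * (q : ℝ)))], ht.2⟩ y
    ⟨by linarith [hy.1], hy.2.le⟩ (hX.trans (min_le_left _ _))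
  have hg : GeoNum q (1 / (1000 * (q : ℝ))) y (Xf y) :=
    ⟨hε.le, le_rfl, hy.1, hy.2, rfl, hX.trans (min_le_right _ _)⟩
  exact ⟨hg, hs, h.apT_boxM_pt ht.2 hy hg hs⟩

end

end Claimed.Agent.R324.Core
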