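/-
Row 324 (S0582), PDE core, module AP, sub-module AP-T (explicit bounds near the tip; sub-architect helper838; plan: Core/AP/PlanT.lean, item 6).      FILE T/CL:  `BgCL q (bgA q w z)`  (assembly of T/Form, T/BoxG, T/AlgC).
-/
import Claimed.Agent.R324.Core.AP.T.BoxG
import Claimed.Agent.R324.Core.AP.T.AlgC

set_option autoImplicit false

namespace Claimed.Agent.R324.Core

open Set Filter Topology
open scoped ContDiff

noncomputable section

variable {q : ℕ} {w z : ℝ → ℝ} {ε t y : ℝ}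

theorem apT_Xf_one : Xf 1 = 0 := by
  unfold Xf
  norm_num

theorem apT_Z_one (g : Bg) (t : ℝ) : g.Z (t, 1) = 1 := by
  unfold Bg.Z
  simp only [apT_Xf_one]
  norm_num

/-- **(A11)** -/
theorem BP.bgA_cl (h : BP q w z) : BgCL q (bgA q w z) := by
  obtain ⟨δ, hδ, hδ1, hb⟩ := h.apT_boxM
  refine ⟨δ, 1 - δ / 40, hδ, by linarith, by linarith, ?_⟩
  intro t ht y hy
  rcases eq_or_lt_of_le hy.2 with h1 | h1
  · subst h1
    rw [apT_Z_one, apT_Xf_one]
    norm_num
  · have hy' : y ∈ Ioo (19 / 20 : ℝ) 1 := ⟨by linarith [hy.1], h1⟩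
    have hy0 := apT_y_ne hy'
    have hX : Xf y ≤ δ := by
      unfold Xf
      nlinarith [hy.1, hy.2]
    obtain ⟨hg, hs, -⟩ := hb t ht y hy' hX
    have hp := h.apT_prof' ht.2 hy'
    have hc := hs.apT_cor
    rw [jg_Z (q : ℝ) w z t hy', h.apT_E ht.2 y, apT_Xwp (q : ℝ) w z t hy', h.apT_th_w ht.2 hy0,
      h.apT_Xap ht.2 hy', h.apT_th_ze ht.2 hy0]
    exact ⟨(apT_algC1 hp hc hg).1, (apT_algC1 hp hc hg).2, apT_algC2 hp hc hg, apT_algC3 hp hc hg,
      apT_algC4 hp hc hg⟩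

end

end Claimed.Agent.R324.Core
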