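/-
Row 324 (S0582), PDE core, module AP, sub-module AP-T (explicit bounds near the tip; sub-architect helper838; plan: Core/AP/PlanT.lean, item 5).      FILE T/Pert:  THE DIFFERENCE  g - g'  AT A POINT  (g' = bgR q g).
      δB = g.B - g'.B,  δw = g.w - g'.w,  δW = g.W - g'.W   (as functions `fun p => g.B p - g'.B p`, the form used in `BgClose`, Core/Bgd.lean).
* `apT_pert_germ`:    `BgEqAt g' g t y` (PR/Germ.lean) says that B, w, W coincide for z near y.   Then  (fun z => δB (t,z)) =ᶠ[𝓝 y] 0,  so  dY δB (t,y) = 0  (`dY_congr_of_eventuallyEq` + `dY_const`, PR/Sm.lean);   second derivative:  `h.eventually` (the germs coincide at all z near y) gives  (fun z => dY δB (t,z)) =ᶠ[𝓝 y] 0.     All eight quantities are 0  (`mul_zero, abs_zero`).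
-/
import Claimed.Agent.R324.Core.Bgd
import Claimed.Agent.R324.Core.PR.Germ

set_option autoImplicit false

namespace Claimed.Agent.R324.Core

open Set Filter Topology
open scoped ContDiff

noncomputable section

/-- the normalised differences between `g` and `g'` at the point `(t,y)` are at most `η`. -/
structure PertAt (g g' : Bg) (t y η : ℝ) : Prop where
  b0 : |Xf y * (g.B (t, y) - g'.B (t, y))| ≤ η
  b1 : |Xf y ^ 2 * dY (fun p => g.B p - g'.B p) (t, y)| ≤ η
  b2 : |Xf y ^ 3 * dY (dY (fun p => g.B p - g'.B p)) (t, y)| ≤ η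
  w0 : |g.w (t, y) - g'.w (t, y)| ≤ η
  w1 : |Xf y * dY (fun p => g.w p - g'.w p) (t, y)| ≤ η
  w2 : |Xf y ^ 2 * dY (dY (fun p => g.w p - g'.w p)) (t, y)| ≤ η
  W0 : |Xf y * (g.W (t, y) - g'.W (t, y))| ≤ η
  W1 : |Xf y ^ 2 * dY (fun p => g.W p - g'.W p) (t, y)| ≤ η

/-- if two functions have the same germ in `y`, the first `y`-derivative of the difference vanishes. -/
theorem apT_dY_sub_eq_zero {a b : Fn} {t y : ℝ} (h : ∀ᶠ z in 𝓝 y, a (t, z) = b (t, z)) :
    dY (fun p => a p - b p) (t, y) = 0 := by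
  have h1 : (fun z => (fun p => a p - b p) (t, z)) =ᶠ[𝓝 y] (fun z => (fun _ : ℝ × ℝ => (0 : ℝ)) (t, z)) :=
    h.mono fun z hz => by simp only [hz, sub_self]
  rw [dY_congr_of_eventuallyEq (f := fun p => a p - b p) (g := fun _ => (0 : ℝ)) h1, dY_const]

/-- the same for the second derivative. -/
theorem apT_dY_dY_sub_eq_zero {a b : Fn} {t y : ℝ} (h : ∀ᶠ z in 𝓝 y, a (t, z) = b (t, z)) :
    dY (dY (fun p => a p - b p)) (t, y) = 0 := by
  have h1 : (fun z => dY (fun p => a p - b p) (t, z)) =ᶠ[𝓝 y] (fun z => (fun _ : ℝ × ℝ => (0 : ℝ)) (t, z)) :=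
    (eventually_eventually_nhds.2 h).mono fun z hz => apT_dY_sub_eq_zero hz
  rw [dY_congr_of_eventuallyEq (f := dY (fun p => a p - b p)) (g := fun _ => (0 : ℝ)) h1, dY_const]

theorem apT_pert_germ {g g' : Bg} {t y : ℝ} (h : BgEqAt g' g t y) : PertAt g g' t y 0 := by
  have hB : ∀ᶠ z in 𝓝 y, g.B (t, z) = g'.B (t, z) := h.mono fun _ hz => hz.1.symm
  have hw : ∀ᶠ z in 𝓝 y, g.w (t, z) = g'.w (t, z) := h.mono fun _ hz => hz.2.1.symm
  have hW : ∀ᶠ z in 𝓝 y, g.W (t, z) = g'.W (t, z) := h.mono fun _ hz => hz.2.2.symm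
  constructor
  · rw [hB.self_of_nhds, sub_self, mul_zero, abs_zero]
  · rw [apT_dY_sub_eq_zero hB, mul_zero, abs_zero]
  · rw [apT_dY_dY_sub_eq_zero hB, mul_zero, abs_zero]
  · rw [hw.self_of_nhds, sub_self, abs_zero]
  · rw [apT_dY_sub_eq_zero hw, mul_zero, abs_zero]
  · rw [apT_dY_dY_sub_eq_zero hw, mul_zero, abs_zero]
  · rw [hW.self_of_nhds, sub_self, mul_zero, abs_zero]
  · rw [apT_dY_sub_eq_zero hW, mul_zero, abs_zero]

end

end Claimed.Agent.R324.Core
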