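/-
Row 324 (S0582), PDE core, module AP, sub-module AP-T (explicit bounds near the tip; sub-architect helper838; plan: Core/AP/PlanT.lean, item 5).      FILE T/PertC:  `BgClose`  ⟹  THE NORMALISED DIFFERENCES ARE  ≤ C 𝔍  ON  y ∈ [1/2,1].
      δB = g.B - g'.B,  δw = g.w - g'.w,  δW = g.W - g'.W,  g' = bgR q g;    `PertAt`: T/Pert.lean.
* `apT_pert_close`:   `BgClose q g` = ∃ Λ₀ C, SymC … 6 (JJ/rh2) δB ∧ SymC … (JJ) δw ∧ SymC … (JJ/Th) δW;     SymC:  |iteratedDeriv j (sl f t) y| ≤ C ϱ t y / (rh2 q t y)^j  for t ∈ [-Λ₀,0), y ∈ [-1,1], j ≤ 6.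
      `iteratedDeriv_sl j f t y : iteratedDeriv j (sl f t) y = dY^[j] f (t,y)`  (PR/Sm.lean;  dY^[0] f = f, dY^[1] f = dY f, dY^[2] f = dY (dY f) by `rfl`).
      Λc := min Λ₀ 1,   C' := |C| (or max C 0).      For y ∈ [1/2,1]:   R = rh2 q t y = ℓ² + X > 0 (`Xt_eq`, `w0_rh2_pos`, `w0_ell2_pos`, Core/W/WtB.lean),  0 ≤ X ≤ R,   Θ = Th t y = Λ + X > 0,  X ≤ Θ,   J = JJ q t y ≥ 0 (product of a power and an rpow of positive numbers).
      |X δB| ≤ X C (J/R) = C J (X/R) ≤ C' J;    |X² ∂δB| ≤ X² C (J/R)/R;    |X³ ∂²δB| ≤ X³ C (J/R)/R²;    |δw| ≤ C J;   |X ∂δw| ≤ X C J/R;   |X² ∂²δw| ≤ X² C J/R²;    |X δW| ≤ X C (J/Θ);    |X² ∂δW| ≤ X² C (J/Θ)/R.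
      (a convenient lemma:  0 ≤ X ≤ R, 0 < R  ⟹  X^k * (A / R^k) ≤ A  for A ≥ 0.)
-/
import Claimed.Agent.R324.Core.AP.T.Pert
import Claimed.Agent.R324.Core.AP.BgA4
import Claimed.Agent.R324.Core.W.WtB

set_option autoImplicit false

namespace Claimed.Agent.R324.Core

open Set Filter Topology
open scoped ContDiff

noncomputable section

/-- `0 ≤ X ≤ R`, `0 < R`, `0 ≤ A`:   `X^k * (C * A / R^k) ≤ |C| * A`  in absolute value. -/
theorem apT_pc_aux {X R A C v : ℝ} (k : ℕ) (hX : 0 ≤ X) (hXR : X ≤ R) (hR : 0 < R) (hA : 0 ≤ A)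
    (hv : |v| ≤ C * A / R ^ k) : |X ^ k * v| ≤ |C| * A := by
  have hRk : 0 < R ^ k := pow_pos hR k
  have hXk : 0 ≤ X ^ k := pow_nonneg hX k
  have hXRk : X ^ k ≤ R ^ k := pow_le_pow_left₀ hX hXR k
  have h1 : C * A / R ^ k ≤ |C| * A / R ^ k :=
    div_le_div_of_nonneg_right (mul_le_mul_of_nonneg_right (le_abs_self C) hA) hRk.le
  have hCA : 0 ≤ |C| * A := mul_nonneg (abs_nonneg _) hA
  rw [abs_mul, abs_of_nonneg hXk]
  calc X ^ k * |v| ≤ R ^ k * (|C| * A / R ^ k) :=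
        mul_le_mul hXRk (hv.trans h1) (abs_nonneg _) hRk.le
    _ = |C| * A := by field_simp

theorem apT_pert_close {q : ℝ} (hq : 100 ≤ q) {g : Bg} (hc : BgClose q g) :
    ∃ Λc C : ℝ, 0 < Λc ∧ Λc ≤ 1 ∧ 0 ≤ C ∧ ∀ t ∈ Ico (-Λc) 0, ∀ y ∈ Icc (1 / 2 : ℝ) 1,
      PertAt g (bgR q g) t y (C * JJ q t y) := by
  obtain ⟨Λ₀, C, hΛ₀, hB, hw, hW⟩ := hc
  refine ⟨min Λ₀ 1, |C|, lt_min hΛ₀ one_pos, min_le_right _ _, abs_nonneg _, fun t ht y hy => ?_⟩
  have ht0 : t < 0 := ht.2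
  have ht' : t ∈ Ico (-Λ₀) 0 := ⟨by linarith [ht.1, min_le_left Λ₀ 1], ht.2⟩
  have hy' : y ∈ Icc (-1 : ℝ) 1 := ⟨by linarith [hy.1], hy.2⟩
  have hq1 : 1 < q := by linarith
  have hR : 0 < rh2 q t y := w0_rh2_pos hq1 ht0 hy'
  have hT : 0 < Th t y := w0_Th_pos ht0 hy'
  have hl : 0 < ell2 q t := w0_ell2_pos hq1 ht0
  have hXe : Xt y = Xf y := Xt_eq hy.1
  have hX : 0 ≤ Xf y := hXe ▸ (Xt_nonneg hy'.1 hy'.2).1
  have hXR : Xf y ≤ rh2 q t y := by
    unfold rh2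
    rw [hXe]
    linarith
  have hXT : Xf y ≤ Th t y := by
    unfold Th
    rw [hXe]
    linarith
  have hJ : 0 ≤ JJ q t y := by
    unfold JJ
    exact mul_nonneg (pow_nonneg hT.le 8) (Real.rpow_nonneg hR.le _)
  have B0 := hB t ht' y hy' 0 (by norm_num)
  have B1 := hB t ht' y hy' 1 (by norm_num)
  have B2 := hB t ht' y hy' 2 (by norm_num)
  have w0 := hw t ht' y hy' 0 (by norm_num)
  have w1 := hw t ht' y hy' 1 (by norm_num)
  have w2 := hw t ht' y hy' 2 (by norm_num)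
  have W0 := hW t ht' y hy' 0 (by norm_num)
  have W1 := hW t ht' y hy' 1 (by norm_num)
  rw [iteratedDeriv_sl] at B0 B1 B2 w0 w1 w2 W0 W1
  simp only [Function.iterate_zero, Function.iterate_succ, Function.comp, id] at B0 B1 B2 w0 w1 w2 W0 W1
  refine ⟨?_, ?_, ?_, ?_, ?_, ?_, ?_, ?_⟩
  · have := apT_pc_aux (C := C) (A := JJ q t y) 1 hX hXR hR hJ (v := g.B (t, y) - (bgR q g).B (t, y)) (by
      refine B0.trans (le_of_eq ?_)
      field_simp)
    simpa using this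
  · exact apT_pc_aux 2 hX hXR hR hJ (by
      refine B1.trans (le_of_eq ?_)
      field_simp)
  · exact apT_pc_aux 3 hX hXR hR hJ (by
      refine B2.trans (le_of_eq ?_)
      field_simp)
  · have := apT_pc_aux (C := C) (A := JJ q t y) 0 hX hXR hR hJ (v := g.w (t, y) - (bgR q g).w (t, y)) (by
      refine w0.trans (le_of_eq ?_)
      simp)
    simpa using this
  · have := apT_pc_aux (C := C) (A := JJ q t y) 1 hX hXR hR hJ
      (v := dY (fun p => g.w p - (bgR q g).w p) (t, y)) w1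
    simpa using this
  · exact apT_pc_aux 2 hX hXR hR hJ w2
  · have := apT_pc_aux (C := C) (A := JJ q t y) 1 hX hXT hT hJ (v := g.W (t, y) - (bgR q g).W (t, y)) (by
      refine W0.trans (le_of_eq ?_)
      field_simp)
    simpa using this
  · -- X² |∂δW| ≤ X² C (J/Θ)/R
    have h1 : |Xf y * dY (fun p => g.W p - (bgR q g).W p) (t, y)| ≤ |C| * (JJ q t y / Th t y) := by
      have := apT_pc_aux (C := C) (A := JJ q t y / Th t y) 1 hX hXR hR (div_nonneg hJ hT.le)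
        (v := dY (fun p => g.W p - (bgR q g).W p) (t, y)) W1
      simpa using this
    have e : Xf y ^ 2 * dY (fun p => g.W p - (bgR q g).W p) (t, y)
        = Xf y * (Xf y * dY (fun p => g.W p - (bgR q g).W p) (t, y)) := by ring
    rw [e, abs_mul, abs_of_nonneg hX]
    calc Xf y * |Xf y * dY (fun p => g.W p - (bgR q g).W p) (t, y)|
        ≤ Th t y * (|C| * (JJ q t y / Th t y)) := mul_le_mul hXT h1 (abs_nonneg _) hT.le
      _ = |C| * JJ q t y := by field_simp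

end

end Claimed.Agent.R324.Core
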