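/-
Row 324 (S0582), PDE core, module AP, sub-module AP-T (explicit bounds near the tip; sub-architect helper838; plan: Core/AP/PlanT.lean, item 5).      FILE T/PertId:  THE QUANTITIES OF TipBox FOR g' IN TERMS OF THOSE FOR g AND OF  δB = g.B - g'.B, δw, δW.
      Toolkit: PR/Sm.lean (`dY_sub, dY_mul, dY_Xf, dY_congr, Sm.sub, Sm.mul, Sm.dY, sm_Xf, Sm.hasDerivAt_y, hasDerivAt_Xf`),  `BgSm.smB, smw, smW`;   `Bg.dd g = dY (fun p => Xf p.2 * g.B p)`,  `Bg.wp g = dY g.w`,  `Bg.wpp g = dY (dY g.w)`,   `tt f y = -(1 - y^2) * deriv f y`,  `Xf y = 1 - y^2`.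
* `apT_id_dd0`:   g'.B = g.B - δB pointwise, so  X g'.B = X g.B - X δB  (`dY_congr`),   dY (X δB) = -2y δB + X dY δB  (`dY_mul`, `dY_Xf`).
* `apT_id_dd`:    multiply by X.
* `apT_id_tt`:    by `apT_id_dd0` (for all s):   X(s) g'.dd (t,s) = X(s) g.dd (t,s) - F(s),   F(s) = -2 s X(s) δB(t,s) + X(s)² δB'(t,s);     both  s ↦ X(s) g.dd (t,s)  and  F  are differentiable (Sm);
                  F' = (4y² - 2X) δB - 6yX δB' + X² δB'';     tt (a - F) = tt a + X F'.        (`deriv_sub`/`HasDerivAt.sub`;  HasDerivAt of δB, dY δB in s: `Sm.hasDerivAt_y`.)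
* `apT_id_wp, apT_id_wpp, apT_id_W1`:   `dY_sub` (and `dY_congr` with `dY_sub` for the second derivative), then `ring`.
-/
import Claimed.Agent.R324.Core.Bgd
import Claimed.Agent.R324.Core.PR.SmBg

set_option autoImplicit false

namespace Claimed.Agent.R324.Core

open Set Filter Topology
open scoped ContDiff

noncomputable section

variable {g g' : Bg} {t : ℝ}

theorem apT_id_dd0 (hg : BgSm g) (hg' : BgSm g') (ht : t < 0) (y : ℝ) :
    g'.dd (t, y) = g.dd (t, y)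
      - (-2 * y * (g.B (t, y) - g'.B (t, y)) + Xf y * dY (fun p => g.B p - g'.B p) (t, y)) := by
  have hd : Sm (fun p => g.B p - g'.B p) := hg.smB.sub hg'.smB
  have e1 : g'.dd (t, y)
      = dY (fun p => Xf p.2 * g.B p - Xf p.2 * (g.B p - g'.B p)) (t, y) := by
    unfold Bg.dd
    refine dY_congr (fun z => ?_) y
    ring
  rw [e1, dY_sub (sm_Xf.mul hg.smB) (sm_Xf.mul hd) ht y, dY_mul sm_Xf hd ht y, dY_Xf]
  rfl

theorem apT_id_dd (hg : BgSm g) (hg' : BgSm g') (ht : t < 0) (y : ℝ) :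
    Xf y * g'.dd (t, y) = Xf y * g.dd (t, y)
      - (-2 * y * (Xf y * (g.B (t, y) - g'.B (t, y)))
          + Xf y ^ 2 * dY (fun p => g.B p - g'.B p) (t, y)) := by
  rw [apT_id_dd0 hg hg' ht y]
  ring

theorem apT_id_tt (hg : BgSm g) (hg' : BgSm g') (ht : t < 0) (y : ℝ) :
    tt (fun s => Xf s * g'.dd (t, s)) y = tt (fun s => Xf s * g.dd (t, s)) y
      + (4 * y ^ 2 - 2 * Xf y) * (Xf y * (g.B (t, y) - g'.B (t, y)))
      - 6 * y * (Xf y ^ 2 * dY (fun p => g.B p - g'.B p) (t, y))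
      + Xf y ^ 3 * dY (dY (fun p => g.B p - g'.B p)) (t, y) := by
  have hd : Sm (fun p => g.B p - g'.B p) := hg.smB.sub hg'.smB
  have hdd : Sm g.dd := (sm_Xf.mul hg.smB).dY
  have e1 : (fun s => Xf s * g'.dd (t, s)) = fun s => Xf s * g.dd (t, s)
      - (-2 * s * (Xf s * (g.B (t, s) - g'.B (t, s)))
          + Xf s ^ 2 * dY (fun p => g.B p - g'.B p) (t, s)) := by
    funext s
    exact apT_id_dd hg hg' ht s
  have hX := hasDerivAt_Xf y
  have h0 := hd.hasDerivAt_y ht y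
  have h1 := hd.dY.hasDerivAt_y ht y
  have ha : HasDerivAt (fun s => Xf s * g.dd (t, s)) (deriv (fun s => Xf s * g.dd (t, s)) y) y :=
    (hX.mul (hdd.hasDerivAt_y ht y)).differentiableAt.hasDerivAt
  have hs : HasDerivAt (fun s : ℝ => -2 * s) (-2) y := by
    simpa using (hasDerivAt_id' y).const_mul (-2 : ℝ)
  have hF := ha.sub ((hs.mul (hX.mul h0)).add ((hX.pow 2).mul h1))
  have hF' : HasDerivAt (fun s => Xf s * g.dd (t, s)
      - (-2 * s * (Xf s * (g.B (t, s) - g'.B (t, s)))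
          + Xf s ^ 2 * dY (fun p => g.B p - g'.B p) (t, s))) _ y := hF
  unfold tt
  rw [e1, hF'.deriv]
  unfold Xf
  simp only [Pi.pow_apply, Pi.mul_apply, Nat.cast_ofNat]
  ring

theorem apT_id_wp (hg : BgSm g) (hg' : BgSm g') (ht : t < 0) (y : ℝ) :
    Xf y * g'.wp (t, y) = Xf y * g.wp (t, y) - Xf y * dY (fun p => g.w p - g'.w p) (t, y) := by
  unfold Bg.wp
  rw [dY_sub hg.smw hg'.smw ht y]
  ring

theorem apT_id_wpp (hg : BgSm g) (hg' : BgSm g') (ht : t < 0) (y : ℝ) :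
    Xf y ^ 2 * g'.wpp (t, y)
      = Xf y ^ 2 * g.wpp (t, y) - Xf y ^ 2 * dY (dY (fun p => g.w p - g'.w p)) (t, y) := by
  unfold Bg.wpp
  have e : dY (dY (fun p => g.w p - g'.w p)) (t, y) = dY (fun p => dY g.w p - dY g'.w p) (t, y) :=
    dY_congr (fun z => dY_sub hg.smw hg'.smw ht z) y
  rw [e, dY_sub hg.smw.dY hg'.smw.dY ht y]
  ring

theorem apT_id_W1 (hg : BgSm g) (hg' : BgSm g') (ht : t < 0) (y : ℝ) :
    Xf y ^ 2 * dY g'.W (t, y)
      = Xf y ^ 2 * dY g.W (t, y) - Xf y ^ 2 * dY (fun p => g.W p - g'.W p) (t, y) := by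
  rw [dY_sub hg.smW hg'.smW ht y]
  ring

end

end Claimed.Agent.R324.Core
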