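/-
Row 324 (S0582), PDE core, module AP, sub-module AP-T (explicit bounds near the tip; sub-architect helper838; plan: Core/AP/PlanT.lean, item 5).      FILE T/Trans:  FROM THE BOX WITH MARGINS FOR g TO THE BOX OF `TipBox` FOR g'.
      PURE REAL ALGEBRA (the five lemmas `apT_tr*`), then the assembly `apT_transfer` (proved).        η ≤ 1/(1000 q) ≤ 10⁻⁵,  q ≥ 100.
* `apT_trZ`:    |1/a - 1| ≤ 5/(2q) ≤ 1/40  ⟹  a ∈ [40/41, 40/39];    a - e ≥ 0.97 > 0;    1/(a-e) - 1/a = e/(a (a-e)),   |…| ≤ η/(0.975 · 0.97) ≤ 1.06 η ≤ 0.5/q.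
* `apT_trD`:    |D - (-2y e0 + e1)| ≤ 27/(2q) + 3η ≤ 13.503/q.
* `apT_trT`:    |4y² - 2X| ≤ 4  (0 ≤ X ≤ 1, y² ≤ 1),   so the change is ≤ (4 + 6 + 1) η.
* `apT_trE`:    A exp(d) ≤ A (1 + 2η)  (`Real.abs_exp_sub_one_le`, or `Real.exp_le_exp` + `Real.exp_bound`…),    2001/2000 · (1 + 2·10⁻⁵) ≤ 1001/1000,   M ≥ 0;   if A < 0 the claim is trivial (A exp d ≤ 0 ≤ …) — or use A ≥ 0 which is assumed.
-/
import Claimed.Agent.R324.Core.AP.T.BoxG
import Claimed.Agent.R324.Core.AP.T.Pert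
import Claimed.Agent.R324.Core.AP.T.PertId

set_option autoImplicit false

namespace Claimed.Agent.R324.Core

open Set Filter Topology
open scoped ContDiff

noncomputable section

variable {q η : ℝ}

theorem apT_eta_q (hq : 100 ≤ q) (hη : η ≤ 1 / (1000 * q)) : η * (1000 * q) ≤ 1 := by
  have hq0 : (0:ℝ) < 1000 * q := by linarith
  rwa [le_div_iff₀ hq0] at hη

theorem apT_trZ (hq : 100 ≤ q) (hη : η ≤ 1 / (1000 * q)) {a e : ℝ} (ha : 0 < a)
    (hZ : |1 / a - 1| ≤ 5 / (2 * q)) (he : |e| ≤ η) : |1 / (a - e) - 1| ≤ 3 / q := by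
  have hq0 : (0:ℝ) < q := by linarith
  have h1 := apT_eta_q hq hη
  have he' := abs_le.1 he
  have hZ' := abs_le.1 hZ
  -- multiply out
  have hu : 1 / a - 1 ≤ 5 / (2 * q) := hZ'.2
  have hl : -(5 / (2 * q)) ≤ 1 / a - 1 := hZ'.1
  have e5 : 5 / (2 * q) * (2 * q) = 5 := by field_simp
  set c := 5 / (2 * q) with hc
  have hc0 : 0 ≤ c := by positivity
  have hc40 : c ≤ 1 / 40 := by
    have : c * (2 * q) = 5 := e5
    nlinarith
  have ea : 1 / a * a = 1 := by field_simp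
  set b := 1 / a with hb
  -- a in [40/41, 40/39]
  have ha1 : 40 / 41 ≤ a := by nlinarith
  have ha2 : a ≤ 40 / 39 := by nlinarith
  have hη5 : η ≤ 1 / 100000 := by nlinarith
  have hae : 0 < a - e := by linarith
  have e3 : 3 / q * q = 3 := by field_simp
  set d := 3 / q with hd
  have hd0 : 0 ≤ d := by positivity
  have hcd : c = 5 / 6 * d := by
    rw [hc, hd]; field_simp; norm_num
  have hηd : η ≤ d / 3000 := by
    have : η * q ≤ 1 / 1000 := by linarith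
    have : η * q ≤ d / 3000 * q := by nlinarith
    exact le_of_mul_le_mul_right this hq0
  rw [abs_le]
  constructor
  · rw [le_sub_iff_add_le, le_div_iff₀ hae]
    -- (-d + 1) (a - e) ≤ 1 ;  know (1 - c) a ≤ 1 i.e. b ≥ 1 - c
    nlinarith
  · rw [sub_le_iff_le_add, div_le_iff₀ hae]
    nlinarith

theorem apT_trD (hq : 100 ≤ q) (hη : η ≤ 1 / (1000 * q)) {y D e0 e1 : ℝ} (hy : y ∈ Icc (1 / 2 : ℝ) 1)
    (hD : |D| ≤ 27 / (2 * q)) (h0 : |e0| ≤ η) (h1 : |e1| ≤ η) :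
    |D - (-2 * y * e0 + e1)| ≤ 14 / q := by
  have hq0 : (0:ℝ) < q := by linarith
  have hη' : η ≤ 1 / 1000 * (1 / q) := by
    refine hη.trans (le_of_eq ?_); field_simp
  have e1' : 27 / (2 * q) = 27 / 2 * (1 / q) := by field_simp
  have e2' : 14 / q = 14 * (1 / q) := by field_simp
  rw [e1'] at hD
  rw [e2']
  set r := 1 / q
  have hr : 0 < r := by positivity
  have hD' := abs_le.1 hD
  have h0' := abs_le.1 h0
  have h1' := abs_le.1 h1
  obtain ⟨hy1, hy2⟩ := hy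
  have hη0 : 0 ≤ η := (abs_nonneg _).trans h0
  rw [abs_le]
  constructor <;> nlinarith

theorem apT_trT (hq : 100 ≤ q) (hη : η ≤ 1 / (1000 * q)) {y T e0 e1 e2 : ℝ} (hy : y ∈ Icc (1 / 2 : ℝ) 1)
    (hT : |T| ≤ 50) (h0 : |e0| ≤ η) (h1 : |e1| ≤ η) (h2 : |e2| ≤ η) :
    |T + (4 * y ^ 2 - 2 * Xf y) * e0 - 6 * y * e1 + e2| ≤ 60 := by
  have h1q := apT_eta_q hq hη
  have hη0 : 0 ≤ η := (abs_nonneg _).trans h0
  have hη5 : η ≤ 1 / 100000 := by nlinarith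
  obtain ⟨hy1, hy2⟩ := hy
  have hk : |4 * y ^ 2 - 2 * Xf y| ≤ 4 := by
    unfold Xf
    rw [abs_le]; constructor <;> nlinarith
  have ha : |(4 * y ^ 2 - 2 * Xf y) * e0| ≤ 4 * η := by
    rw [abs_mul]; exact mul_le_mul hk h0 (abs_nonneg _) (by norm_num)
  have hb : |6 * y * e1| ≤ 6 * η := by
    rw [abs_mul]
    refine mul_le_mul ?_ h1 (abs_nonneg _) (by norm_num)
    rw [abs_le]; constructor <;> linarith
  have hT' := abs_le.1 hT
  have ha' := abs_le.1 ha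
  have hb' := abs_le.1 hb
  have h2' := abs_le.1 h2
  rw [abs_le]
  constructor <;> linarith

theorem apT_trE (hq : 100 ≤ q) (hη : η ≤ 1 / (1000 * q)) {A M d : ℝ} (hA0 : 0 ≤ A)
    (hA : A ≤ 2001 / 2000 * M) (hd : |d| ≤ η) : A * Real.exp d ≤ 1001 / 1000 * M := by
  have h1q := apT_eta_q hq hη
  have hη0 : 0 ≤ η := (abs_nonneg _).trans hd
  have hη5 : η ≤ 1 / 100000 := by nlinarith
  have hd1 : |d| ≤ 1 := by linarith
  have h := Real.abs_exp_sub_one_le hd1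
  have h' := (abs_le.1 h).2
  have hex : Real.exp d ≤ 1 + 2 / 100000 := by linarith
  have hM : 0 ≤ M := by linarith
  calc A * Real.exp d ≤ A * (1 + 2 / 100000) := mul_le_mul_of_nonneg_left hex hA0
    _ ≤ (2001 / 2000 * M) * (1 + 2 / 100000) := mul_le_mul_of_nonneg_right hA (by norm_num)
    _ ≤ 1001 / 1000 * M := by nlinarith

theorem apT_eta_le (hq : 100 ≤ q) (hη : η ≤ 1 / (1000 * q)) : η ≤ 1 / 100000 := by
  refine hη.trans ?_
  rw [div_le_div_iff₀ (by positivity) (by norm_num)]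
  linarith

theorem apT_transfer (hq : 100 ≤ q) {g g' : Bg} (hg : BgSm g) (hg' : BgSm g') {t y : ℝ} (ht : t < 0)
    (hy : y ∈ Icc (1 / 2 : ℝ) 1) (hb : BoxM q g t y) (hp : PertAt g g' t y η)
    (hη : η ≤ 1 / (1000 * q)) :
    |g'.Z (t, y) - 1| ≤ 3 / q ∧
    |Xf y * g'.dd (t, y)| ≤ 14 / q ∧
    |tt (fun z => Xf z * g'.dd (t, z)) y| ≤ 60 ∧
    -(201 / 100) ≤ Xf y * g'.wp (t, y) ∧ Xf y * g'.wp (t, y) ≤ 1 / 100 ∧
    |Xf y ^ 2 * g'.wpp (t, y)| ≤ 13 ∧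
    Xf y * Real.exp (-g'.w (t, y)) ≤ 1001 / 1000 * (q - 1) ∧
    Xf y * Real.exp (-g'.w (t, y)) * (100 * ell2 q t) ≤ 1001 / 1000 * (q - 1) * Xf y ∧
    |Xf y * g'.W (t, y)| ≤ 1 / 100 ∧ |Xf y ^ 2 * dY g'.W (t, y)| ≤ 1 / 100 := by
  have hη' := apT_eta_le hq hη
  have hX : 0 ≤ Xf y := by
    unfold Xf
    nlinarith [hy.1, hy.2]
  have hl : 0 ≤ 100 * ell2 q t := by
    have h1 : 0 < (-t) ^ (2 * gaF q) := Real.rpow_pos_of_pos (by linarith) _
    unfold ell2 lam2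
    have h2 : 0 ≤ (q - 1) / 100 := by linarith
    positivity
  have hex : Real.exp (-g'.w (t, y)) = Real.exp (-g.w (t, y)) * Real.exp (g.w (t, y) - g'.w (t, y)) := by
    rw [← Real.exp_add]
    congr 1
    ring
  have hw1 := abs_le.1 hp.w1
  have hw2 := abs_le.1 hp.w2
  have hW0 := abs_le.1 hp.W0
  have hW1 := abs_le.1 hp.W1
  refine ⟨?_, ?_, ?_, ?_, ?_, ?_, ?_, ?_, ?_, ?_⟩
  · have e : g'.Z (t, y) = 1 / (1 + Xf y * g.B (t, y) - Xf y * (g.B (t, y) - g'.B (t, y))) := by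
      unfold Bg.Z
      congr 1
      ring
    rw [e]
    exact apT_trZ hq hη (hg.pos t ht y) hb.Z hp.b0
  · rw [apT_id_dd hg hg' ht y]
    exact apT_trD hq hη hy hb.D hp.b0 hp.b1
  · rw [apT_id_tt hg hg' ht y]
    exact apT_trT hq hη hy hb.T hp.b0 hp.b1 hp.b2
  · rw [apT_id_wp hg hg' ht y]
    linarith [hb.w1_lo]
  · rw [apT_id_wp hg hg' ht y]
    linarith [hb.w1_hi]
  · rw [apT_id_wpp hg hg' ht y]
    have := abs_le.1 hb.w2
    rw [abs_le]
    constructor <;> linarith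
  · rw [hex, ← mul_assoc]
    exact apT_trE hq hη (mul_nonneg hX (Real.exp_pos _).le) hb.e hp.w0
  · have e : Xf y * Real.exp (-g'.w (t, y)) * (100 * ell2 q t)
        = Xf y * Real.exp (-g.w (t, y)) * (100 * ell2 q t) * Real.exp (g.w (t, y) - g'.w (t, y)) := by
      rw [hex]
      ring
    rw [e, mul_assoc (1001 / 1000 : ℝ)]
    refine apT_trE hq hη (mul_nonneg (mul_nonneg hX (Real.exp_pos _).le) hl) ?_ hp.w0
    rw [← mul_assoc (2001 / 2000 : ℝ)]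
    exact hb.el
  · have e : Xf y * g'.W (t, y) = Xf y * g.W (t, y) - Xf y * (g.W (t, y) - g'.W (t, y)) := by ring
    rw [e]
    have := abs_le.1 hb.W
    rw [abs_le]
    constructor <;> linarith
  · rw [apT_id_W1 hg hg' ht y]
    have := abs_le.1 hb.W1
    rw [abs_le]
    constructor <;> linarith

end

end Claimed.Agent.R324.Core
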