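/-
Row 324 (S0582), PDE core, module AP, sub-module AP-T (explicit bounds near the tip; sub-architect helper838; plan: Core/AP/PlanT.lean).      FILE T/WtJ:  SMALLNESS OF  𝔍 = JJ = Θ^8 r̂^{-α}  IN THE ZONE  Λ^{3/2} ≤ X ≤ Λ.
      R = rh2 q t y = ℓ² + X̃,   ℓ² = ell2 q t = c Λ^(2γ),  c = (q-1)/100,  Λ = -t ∈ (0,1],  γ = gaF q = 8/α,  α = alF q = bAl q ∈ (2,3) (`bAl_bounds`),  Θ = Th t y = Λ + X̃,   X̃ = Xt y = Xf y =: X ∈ [0,3/4] for y ∈ [1/2,1] (`Xt_eq`).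
      wt q a b c p = (R^(-α/2))^a * Θ^b * R^c  (a : ℕ, b c : ℤ; Cal/WtA.lean).        PATTERN: the proof of `JJ_le` (Cal/WtB.lean) has exactly these two cases and all the rpow manipulations.

* `apT_JJ_le`:      Λ √Λ ≤ X ≤ Λ ≤ 1:    Θ ≤ 2Λ;    R ≥ X ≥ Λ √Λ ≥ Λ²  (√Λ ≥ Λ for Λ ≤ 1)  ⟹  R^(-α/2) ≤ (Λ²)^(-α/2) = Λ^(-α) ≤ Λ^(-3);     JJ = Θ^8 R^(-α/2) ≤ 256 Λ^8 Λ^(-3) = 256 Λ^5.        (JJ q t y = (Th t y)^8 * (rh2 q t y)^(-(alF q)/2), Core/Defs.lean.)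
-/
import Claimed.Agent.R324.Core.AP.BgA4

set_option autoImplicit false

namespace Claimed.Agent.R324.Core

open Set Filter Topology
open scoped ContDiff

noncomputable section

variable {q t y : ℝ}

theorem apT_JJ_le (hq : 100 ≤ q) (ht : t ∈ Ico (-1 : ℝ) 0) (hy : y ∈ Icc (1 / 2 : ℝ) 1)
    (h1 : (-t) * Real.sqrt (-t) ≤ Xf y) (h2 : Xf y ≤ -t) : JJ q t y ≤ 256 * (-t) ^ 5 := by
  have hα := bAl_bounds hq
  obtain ⟨L, hL⟩ : ∃ L : ℝ, L = -t := ⟨_, rfl⟩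
  rw [← hL] at h1 h2 ⊢
  have hL0 : 0 < L := by rw [hL]; linarith [ht.2]
  have hL1 : L ≤ 1 := by rw [hL]; linarith [ht.1]
  have hXt : Xt y = Xf y := Xt_eq hy.1
  have hsq : L ≤ Real.sqrt L := by
    have h3 : Real.sqrt L * Real.sqrt L = L := Real.mul_self_sqrt hL0.le
    have h4 : 0 ≤ Real.sqrt L := Real.sqrt_nonneg L
    have h5 : Real.sqrt L ≤ 1 := by
      rw [← Real.sqrt_one]
      exact Real.sqrt_le_sqrt hL1
    nlinarith
  have hX : L ^ 2 ≤ Xf y := by nlinarith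
  have hell : 0 ≤ ell2 q t := by
    unfold ell2 lam2
    have h6 : 0 ≤ (q - 1) / 100 := by
      have : 0 ≤ q - 1 := by linarith
      positivity
    have h7 : 0 ≤ (-t) ^ (2 * gaF q) := Real.rpow_nonneg (by linarith [ht.2]) _
    exact mul_nonneg h6 h7
  have hR : L ^ 2 ≤ rh2 q t y := by
    unfold rh2
    rw [hXt]
    linarith
  have hTh0 : 0 ≤ Th t y := by
    unfold Th
    rw [hXt, ← hL]
    nlinarith [sq_nonneg L]
  have hTh : Th t y ≤ 2 * L := by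
    unfold Th
    rw [hXt, ← hL]
    linarith
  have e1 : (rh2 q t y) ^ (-(alF q) / 2) ≤ (L ^ 2) ^ (-(alF q) / 2) := by
    apply Real.rpow_le_rpow_of_nonpos (by positivity) hR
    unfold alF
    linarith [hα.1]
  have e2 : (L ^ 2) ^ (-(alF q) / 2) = L ^ (-(alF q)) := by
    rw [← Real.rpow_natCast L 2, ← Real.rpow_mul hL0.le]
    congr 1
    push_cast
    ring
  have e3 : L ^ (-(alF q)) ≤ L ^ (-(3 : ℝ)) := by
    apply Real.rpow_le_rpow_of_exponent_ge hL0 hL1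
    unfold alF
    linarith [hα.2]
  have e4 : L ^ (-(3 : ℝ)) = (L ^ 3)⁻¹ := by
    rw [Real.rpow_neg hL0.le]
    congr 1
    exact_mod_cast Real.rpow_natCast L 3
  have e5 : (rh2 q t y) ^ (-(alF q) / 2) ≤ (L ^ 3)⁻¹ := by
    rw [← e4]
    exact e1.trans (e2.le.trans e3)
  have e6 : (Th t y) ^ 8 ≤ (2 * L) ^ 8 := pow_le_pow_left₀ hTh0 hTh 8
  unfold JJ
  calc (Th t y) ^ 8 * (rh2 q t y) ^ (-(alF q) / 2) ≤ (2 * L) ^ 8 * (L ^ 3)⁻¹ :=
        mul_le_mul e6 e5 (Real.rpow_nonneg (le_trans (by positivity) hR) _) (by positivity)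
    _ = 256 * L ^ 5 := by
        field_simp
        ring

end

end Claimed.Agent.R324.Core
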