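/-
Row 324 (S0582), PDE core, module AP, sub-module AP-T (explicit bounds near the tip; sub-architect helper838; plan: Core/AP/PlanT.lean).      FILE T/Main:  `TipBox q (bgR q (bgA q w z))`  (assembly of T/BoxG, T/Pert, T/PertC, T/WtJ, T/Trans)  and, re-exported from T/CL,  `BP.bgA_cl`.
-/
import Claimed.Agent.R324.Core.AP.T.Trans
import Claimed.Agent.R324.Core.AP.T.PertC
import Claimed.Agent.R324.Core.AP.T.WtJ
import Claimed.Agent.R324.Core.AP.T.CL
import Claimed.Agent.R324.Core.AP.Coer.Defs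
import Claimed.Agent.R324.Core.PR.SmR

set_option autoImplicit false

namespace Claimed.Agent.R324.Core

open Set Filter Topology
open scoped ContDiff

noncomputable section

variable {q : ℕ} {w z : ℝ → ℝ}

/-- **explicit bounds near the tip for the reference background.** -/
theorem BP.bgA_tipBox (h : BP q w z) (hc : BgClose q (bgA q w z)) :
    TipBox q (bgR q (bgA q w z)) := by
  have hq := h.hqR
  have hq1 : (1 : ℝ) < (q : ℝ) := by linarith
  have hsm := h.bgA_sm
  have hsmR : BgSm (bgR q (bgA q w z)) := bgR_sm hq1 hsm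
  obtain ⟨δ, hδ, hδ1, hb⟩ := h.apT_boxM
  obtain ⟨Λc, C, hΛc, hΛc1, hC, hp⟩ := apT_pert_close hq hc
  have hK : 0 < 1000 * (q : ℝ) * (256 * C + 1) := by positivity
  refine ⟨1, min (min δ Λc) (min (1 / 20) (1 / (1000 * (q : ℝ) * (256 * C + 1)))), one_pos,
    lt_min (lt_min hδ hΛc) (lt_min (by norm_num) (by positivity)), ?_⟩
  intro t ht y hy hX
  set Λ₀ := min (min δ Λc) (min (1 / 20) (1 / (1000 * (q : ℝ) * (256 * C + 1)))) with hΛ₀
  have l1 : Λ₀ ≤ δ := (min_le_left _ _).trans (min_le_left _ _)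
  have l2 : Λ₀ ≤ Λc := (min_le_left _ _).trans (min_le_right _ _)
  have l3 : Λ₀ ≤ 1 / 20 := (min_le_right _ _).trans (min_le_left _ _)
  have l4 : Λ₀ ≤ 1 / (1000 * (q : ℝ) * (256 * C + 1)) := (min_le_right _ _).trans (min_le_right _ _)
  have ht0 : t < 0 := ht.2
  have htΛ : -t ≤ Λ₀ := by linarith [ht.1]
  rw [one_mul] at hX
  rcases eq_or_lt_of_le hy.2 with h1 | h1
  · subst h1
    have e : tt (fun s => Xf s * (bgR q (bgA q w z)).dd (t, s)) 1 = 0 := by
      unfold tt
      norm_num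
    rw [apT_Z_one, apT_Xf_one, e]
    have p3 : (0 : ℝ) ≤ 3 / (q : ℝ) := by positivity
    have p14 : (0 : ℝ) ≤ 14 / (q : ℝ) := by positivity
    refine ⟨by simpa using p3, by simpa using p14, by norm_num, by norm_num, by norm_num,
      by norm_num, ?_, by norm_num, by norm_num, by norm_num⟩
    rw [zero_mul]
    have : (0 : ℝ) ≤ (q : ℝ) - 1 := by linarith
    positivity
  · have hy' : y ∈ Ioo (19 / 20 : ℝ) 1 := by
      refine ⟨?_, h1⟩
      have hX' : Xf y ≤ 1 / 20 := by linarith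
      unfold Xf at hX'
      nlinarith [hy.1]
    obtain ⟨-, -, hbox⟩ := hb t ⟨by linarith, ht0⟩ y hy' (by linarith)
    rcases lt_or_ge (Xf y) ((-t) * Real.sqrt (-t)) with h2 | h2
    · exact apT_transfer hq hsm hsmR ht0 hy hbox (apT_pert_germ (bgR_eqAt_of_X_lt q _ ht0 h2))
        (by positivity)
    · have hJ := apT_JJ_le hq (t := t) ⟨by linarith, ht0⟩ hy h2 hX
      refine apT_transfer hq hsm hsmR ht0 hy hbox (hp t ⟨by linarith, ht0⟩ y hy) ?_
      have hΛ : 0 < -t := by linarith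
      have hΛ1 : -t ≤ 1 := by linarith
      have h5 : (-t) ^ 5 ≤ -t := by
        calc (-t) ^ 5 ≤ (-t) ^ 1 := pow_le_pow_of_le_one hΛ.le hΛ1 (by norm_num)
          _ = -t := pow_one _
      calc C * JJ q t y ≤ C * (256 * (-t) ^ 5) := mul_le_mul_of_nonneg_left hJ hC
        _ ≤ C * (256 * (-t)) := by gcongr
        _ ≤ (256 * C + 1) * (-t) := by nlinarith
        _ ≤ (256 * C + 1) * (1 / (1000 * (q : ℝ) * (256 * C + 1))) :=
            mul_le_mul_of_nonneg_left (htΛ.trans l4) (by positivity)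
        _ = 1 / (1000 * (q : ℝ)) := by
            field_simp

end

end Claimed.Agent.R324.Core
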