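/-
Row 324 (S0582), PDE core, module AP, sub-module AP-T (explicit bounds near the tip; sub-architect helper838; plan: Core/AP/PlanT.lean).      FILE T/Wt1:  SMALLNESS OF THE WEIGHT  wt 1 7 1 = r̂^{2-α} Θ^7.
      R = rh2 q t y = ℓ² + X̃,   ℓ² = ell2 q t = c Λ^(2γ),  c = (q-1)/100,  Λ = -t ∈ (0,1],  γ = gaF q = 8/α,  α = alF q = bAl q ∈ (2,3) (`bAl_bounds`),  Θ = Th t y = Λ + X̃,   X̃ = Xt y = Xf y =: X ∈ [0,3/4] for y ∈ [1/2,1] (`Xt_eq`).
      wt q a b c p = (R^(-α/2))^a * Θ^b * R^c  (a : ℕ, b c : ℤ; Cal/WtA.lean).        PATTERN: the proof of `JJ_le` (Cal/WtB.lean) has exactly these two cases and all the rpow manipulations.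

* `apT_wt171_le`:   wt 1 7 1 = R^(-α/2) Θ^7 R = R^(-β) Θ^7,  β = α/2 - 1 ∈ (0,1/2)   (`Real.rpow_add`, R > 0; or keep R^(-α/2) * R and bound it).     K := 128 + 128 c^(-β)  (c > 0).
      Case Λ ≤ X:   Θ ≤ 2X,  R ≥ X > 0  ⟹  R^(-β) ≤ X^(-β) ≤ X^(-1)  (`Real.rpow_le_rpow_of_nonpos`;  X ≤ 1: `Real.rpow_le_rpow_of_exponent_ge`),   so  wt ≤ X⁻¹ (2X)^7 = 128 X^6 ≤ 128 X ≤ 128 Θ.
      Case X < Λ:   Θ ≤ 2Λ,  R ≥ c Λ^(2γ)  ⟹  R^(-β) ≤ c^(-β) Λ^(-2γβ)  (`Real.mul_rpow`, `Real.rpow_mul`),   2γβ = 8 - 16/α < 3  ⟹  Λ^(-2γβ) ≤ Λ^(-3),    so  wt ≤ c^(-β) Λ^(-3) (2Λ)^7 = 128 c^(-β) Λ^4 ≤ 128 c^(-β) Θ.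
-/
import Claimed.Agent.R324.Core.AP.BgA4

set_option autoImplicit false

namespace Claimed.Agent.R324.Core

open Set Filter Topology
open scoped ContDiff

noncomputable section

variable {q t y : ℝ}

theorem apT_wt171_le (hq : 100 ≤ q) : ∃ K : ℝ, 0 ≤ K ∧ ∀ t ∈ Ico (-1 : ℝ) 0, ∀ y ∈ Icc (1 / 2 : ℝ) 1,
    wt q 1 7 1 (t, y) ≤ K * Th t y := by
  have hα := bAl_bounds hq
  have hα0 : 0 < bAl q := by linarith [hα.1]
  have hc : 0 < (q - 1) / 100 := by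
    have : 0 < q - 1 := by linarith
    positivity
  set cc : ℝ := (q - 1) / 100 with hcc
  set e : ℝ := -(bAl q) / 2 + 1 with he
  have he0 : e ≤ 0 := by rw [he]; linarith [hα.1]
  have he1 : -1 / 2 ≤ e := by rw [he]; linarith [hα.2]
  have hcp : 0 < cc ^ e := Real.rpow_pos_of_pos hc _
  refine ⟨64 + 64 * cc ^ e, by positivity, fun t ht y hy => ?_⟩
  obtain ⟨hX0, hX1⟩ := Xt_nonneg (y := y) (by linarith [hy.1]) hy.2
  set X := Xt y with hX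
  set Λ := -t with hΛ
  have hΛ0 : 0 < Λ := by rw [hΛ]; linarith [ht.2]
  have hΛ1 : Λ ≤ 1 := by rw [hΛ]; linarith [ht.1]
  have hΘe : Th t y = Λ + X := rfl
  have hRe : rh2 q t y = cc * Λ ^ (2 * gaF q) + X := rfl
  have hΛp : 0 < Λ ^ (2 * gaF q) := Real.rpow_pos_of_pos hΛ0 _
  have hR : 0 < rh2 q t y := by
    rw [hRe]
    have := mul_pos hc hΛp
    linarith
  have hΘ : 0 < Th t y := by rw [hΘe]; linarith
  have hwt : wt q 1 7 1 (t, y) = (Th t y ^ 6 * rh2 q t y ^ e) * Th t y := by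
    have h1 : wt q 1 7 1 (t, y) = ((rh2 q t y) ^ (-(bAl q) / 2)) ^ 1 * (Th t y) ^ (7 : ℤ) * (rh2 q t y) ^ (1 : ℤ) := rfl
    rw [h1, he, Real.rpow_add hR, Real.rpow_one, pow_one, zpow_one]
    have h7 : (Th t y) ^ (7 : ℤ) = (Th t y) ^ 7 := by norm_cast
    rw [h7]
    ring
  rw [hwt]
  apply mul_le_mul_of_nonneg_right _ hΘ.le
  rcases le_total Λ X with hcase | hcase
  · have hXpos : 0 < X := lt_of_lt_of_le hΛ0 hcase
    have e1 : rh2 q t y ^ e ≤ X ^ e := by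
      apply Real.rpow_le_rpow_of_nonpos hXpos _ he0
      rw [hRe]
      have := mul_pos hc hΛp
      linarith
    have e2 : Th t y ^ 6 ≤ (2 * X) ^ 6 := by
      apply pow_le_pow_left₀ hΘ.le
      rw [hΘe]; linarith
    have e3 : X ^ 6 * X ^ e ≤ 1 := by
      rw [← Real.rpow_natCast X 6, ← Real.rpow_add hXpos]
      apply Real.rpow_le_one hX0 hX1
      push_cast
      linarith
    calc Th t y ^ 6 * rh2 q t y ^ e
        ≤ (2 * X) ^ 6 * X ^ e := mul_le_mul e2 e1 (Real.rpow_nonneg hR.le _) (by positivity)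
      _ = 64 * (X ^ 6 * X ^ e) := by ring
      _ ≤ 64 * 1 := by gcongr
      _ ≤ 64 + 64 * cc ^ e := by
          have : 0 ≤ (64 : ℝ) * cc ^ e := by positivity
          linarith
  · have e1 : rh2 q t y ^ e ≤ (cc * Λ ^ (2 * gaF q)) ^ e := by
      apply Real.rpow_le_rpow_of_nonpos (mul_pos hc hΛp) _ he0
      rw [hRe]
      linarith
    have e1' : (cc * Λ ^ (2 * gaF q)) ^ e = cc ^ e * Λ ^ (2 * gaF q * e) := by
      rw [Real.mul_rpow hc.le hΛp.le, ← Real.rpow_mul hΛ0.le]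
    have e2 : Th t y ^ 6 ≤ (2 * Λ) ^ 6 := by
      apply pow_le_pow_left₀ hΘ.le
      rw [hΘe]; linarith
    have hexp : 0 ≤ 6 + 2 * gaF q * e := by
      have h1 : 2 * gaF q * e = 16 / bAl q - 8 := by
        rw [he]
        unfold gaF
        field_simp
        ring
      rw [h1]
      have h2 : 16 / 3 ≤ 16 / bAl q := div_le_div_of_nonneg_left (by norm_num) hα0 hα.2.le
      linarith
    have e3 : Λ ^ 6 * Λ ^ (2 * gaF q * e) ≤ 1 := by
      rw [← Real.rpow_natCast Λ 6, ← Real.rpow_add hΛ0]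
      apply Real.rpow_le_one hΛ0.le hΛ1
      push_cast
      exact hexp
    calc Th t y ^ 6 * rh2 q t y ^ e
        ≤ (2 * Λ) ^ 6 * (cc ^ e * Λ ^ (2 * gaF q * e)) := by
          rw [← e1']
          exact mul_le_mul e2 e1 (Real.rpow_nonneg hR.le _) (by positivity)
      _ = 64 * cc ^ e * (Λ ^ 6 * Λ ^ (2 * gaF q * e)) := by ring
      _ ≤ 64 * cc ^ e * 1 := by gcongr
      _ ≤ 64 + 64 * cc ^ e := by linarith

end

end Claimed.Agent.R324.Core
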